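import Vale.Agent.P165.GL2.Trace

/-!
# A place with a hyperbolic element

A finitely generated image that is not virtually solvable has a hyperbolic element either at an
embedding into the complex numbers or at a discrete absolute value.
-/

namespace Vale.Agent.P165.GL2

open Matrix
open scoped MatrixGroups WithZero

variable {Γ : Type} [Group Γ] {L : Type} [Field L]

/-- In a relation of algebraic dependence two values coincide. -/
theorem exists_pow_value {k E : Type} [Field k] [Field E] [Algebra k E] [FiniteDimensional k E]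
    (A : ValuationSubring E) {y : E} (hy : y ≠ 0) :
    ∃ x : k, x ≠ 0 ∧ ∃ m : ℕ, m ∣ (Module.finrank k E).factorial ∧
      A.valuation y ^ m = A.valuation (algebraMap k E x) := by
  classical
  set p := minpoly k y with hp
  have hp0 : p ≠ 0 := minpoly.ne_zero (Algebra.IsIntegral.isIntegral y)
  have hsum : ∑ i ∈ p.support, algebraMap k E (p.coeff i) * y ^ i = 0 := by
    have := minpoly.aeval k y
    rwa [Polynomial.aeval_def, Polynomial.eval₂_eq_sum, Polynomial.sum_def] at this
  set T : ℕ → E := fun i => algebraMap k E (p.coeff i) * y ^ i with hT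
  obtain ⟨i, hi, hmax⟩ := Finset.exists_max_image p.support (fun i => A.valuation (T i))
    (Polynomial.support_nonempty.2 hp0)
  have hne : ∀ {j}, j ∈ p.support → algebraMap k E (p.coeff j) ≠ 0 := fun hj => by
    rw [ne_eq, map_eq_zero]
    exact Polynomial.mem_support_iff.1 hj
  obtain ⟨j, hj, hji, heq⟩ : ∃ j ∈ p.support, j ≠ i ∧ A.valuation (T j) = A.valuation (T i) := by
    by_contra hc
    have h := Valuation.map_sum_eq_of_lt A.valuation hi (f := T) fun j hj => by
      rw [Finset.mem_sdiff, Finset.mem_singleton] at hj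
      exact lt_of_le_of_ne (hmax j hj.1) fun e => hc ⟨j, hj.1, hj.2, e⟩
    rw [hsum, map_zero] at h
    exact mul_ne_zero (hne hi) (pow_ne_zero i hy) (A.valuation.zero_iff.1 h.symm)
  have hdeg : ∀ {j}, j ∈ p.support → j ≤ Module.finrank k E := fun hj =>
    (Polynomial.le_natDegree_of_mem_supp _ hj).trans (minpoly.natDegree_le y)
  have key : ∀ i j : ℕ, i ∈ p.support → j ∈ p.support → i < j →
      A.valuation (T i) = A.valuation (T j) →
      ∃ x : k, x ≠ 0 ∧ ∃ m : ℕ, m ∣ (Module.finrank k E).factorial ∧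
        A.valuation y ^ m = A.valuation (algebraMap k E x) := by
    intro i j hi hj hij he
    refine ⟨p.coeff i / p.coeff j, div_ne_zero (Polynomial.mem_support_iff.1 hi)
      (Polynomial.mem_support_iff.1 hj), j - i,
      Nat.dvd_factorial (Nat.sub_pos_of_lt hij) ((Nat.sub_le _ _).trans (hdeg hj)), ?_⟩
    simp only [hT, map_mul, map_pow] at he
    rw [map_div₀, map_div₀, eq_div_iff (A.valuation.ne_zero_iff.2 (hne hj))]
    have hv : A.valuation y ^ i ≠ 0 := pow_ne_zero _ (A.valuation.ne_zero_iff.2 hy)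
    refine mul_right_cancel₀ hv (Eq.trans ?_ he.symm)
    rw [mul_right_comm, ← pow_add, Nat.sub_add_cancel hij.le, mul_comm]
  rcases lt_or_gt_of_ne hji with h | h
  · exact key j i hj hi h heq
  · exact key i j hi hj h heq.symm

/-- A discrete valuation extends to a finite extension as a discrete absolute value. -/
theorem exists_ext {k E : Type} [Field k] [Field E] [Algebra k E] [FiniteDimensional k E]
    (v : Valuation k ℤᵐ⁰) {π : k} (hπ : v π = WithZero.exp (-1 : ℤ)) :
    ∃ w : AbsoluteValue E ℝ, Disc w ∧ ∀ x, v x < 1 → w (algebraMap k E x) < 1 := by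
  classical
  obtain ⟨A, hA, hloc⟩ := IsLocalRing.exists_factor_valuationRing
    ((algebraMap k E).comp v.valuationSubring.subtype)
  set W := A.valuation with hW
  set am := algebraMap k E
  have hle : ∀ x : k, v x ≤ 1 → W (am x) ≤ 1 := fun x hx =>
    (A.valuation_le_one_iff _).2 (hA ⟨x, hx⟩)
  have hπ0 : π ≠ 0 := fun e => WithZero.exp_ne_zero (hπ.symm.trans (by simp [e]))
  have hπ1 : v π < 1 := by
    rw [hπ, ← WithZero.exp_zero, WithZero.exp_lt_exp]
    norm_num
  set P := W (am π) with hP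
  have hP0 : 0 < P := by
    rw [zero_lt_iff, hP, Valuation.ne_zero_iff]
    exact (map_ne_zero am).2 hπ0
  have hP1 : P < 1 := by
    refine lt_of_le_of_ne (hle π hπ1.le) fun e => ?_
    let f := ((algebraMap k E).comp v.valuationSubring.subtype).codRestrict A.toSubring hA
    have hu : IsUnit (f ⟨π, hπ1.le⟩) := (A.valuation_eq_one_iff _).2 e
    obtain ⟨u, hu'⟩ := IsLocalHom.map_nonunit (f := f) _ hu
    have h1 : v π * v (u⁻¹ : v.valuationSubringˣ).1.1 = 1 := by
      rw [← map_mul]
      have := congrArg Subtype.val u.mul_inv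
      rw [hu'] at this
      exact (congrArg v this).trans v.map_one
    have h2 : v (u⁻¹ : v.valuationSubringˣ).1.1 ≤ 1 := (u⁻¹).1.2
    exact (mul_lt_one_of_lt_of_le hπ1 h2).ne h1
  have hinj : Function.Injective (fun n : ℤ => P ^ n) :=
    (zpow_right_strictAnti₀ hP0 hP1).injective
  have hbase : ∀ x : k, x ≠ 0 → W (am x) = P ^ (-WithZero.log (v x)) := by
    intro x hx
    set n := WithZero.log (v x) with hn
    have hv1 : v (x * π ^ n) = 1 := by
      rw [map_mul, map_zpow₀, hπ, ← WithZero.exp_zsmul, ← WithZero.exp_log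
        (v.ne_zero_iff.2 hx), ← hn, ← WithZero.exp_add, ← WithZero.exp_zero]
      simp
    have hv2 : v (x * π ^ n)⁻¹ = 1 := by rw [map_inv₀, hv1, inv_one]
    have h1 : W (am x) * P ^ n = 1 := by
      rw [hP, ← map_zpow₀ W, ← map_zpow₀ am, ← map_mul, ← map_mul]
      refine le_antisymm (hle _ hv1.le) ?_
      have h2 := hle _ hv2.le
      rw [map_inv₀, map_inv₀] at h2
      exact (inv_le_one₀ (zero_lt_iff.2 (W.ne_zero_iff.2 ((map_ne_zero am).2
        (mul_ne_zero hx (zpow_ne_zero _ hπ0)))))).1 h2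
    rw [_root_.zpow_neg]
    exact eq_inv_of_mul_eq_one_left h1
  set M := (Module.finrank k E).factorial with hM
  have hex : ∀ y : E, y ≠ 0 → ∃ m : ℤ, W y ^ M = P ^ m := by
    intro y hy
    obtain ⟨x, hx, m, ⟨c, hc⟩, he⟩ := exists_pow_value A hy (k := k)
    refine ⟨-WithZero.log (v x) * c, ?_⟩
    rw [hM, hc, pow_mul, he, hbase x hx, _root_.zpow_mul, zpow_natCast]
  choose n hn using hex
  let ord : E → ℤ := fun y => if h : y = 0 then 0 else n y h
  have hord : ∀ y, y ≠ 0 → W y ^ M = P ^ ord y := fun y hy => by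
    simp only [ord, dif_neg hy]
    exact hn y hy
  have hmul : ∀ y z, y ≠ 0 → z ≠ 0 → ord (y * z) = ord y + ord z := fun y z hy hz => by
    apply hinj
    change P ^ ord (y * z) = P ^ (ord y + ord z)
    rw [zpow_add₀ hP0.ne', ← hord y hy, ← hord z hz, ← hord _ (mul_ne_zero hy hz), map_mul,
      mul_pow]
  have hadd : ∀ y z, y ≠ 0 → z ≠ 0 → y + z ≠ 0 → min (ord y) (ord z) ≤ ord (y + z) := by
    intro y z hy hz hyz
    have h : W (y + z) ^ M ≤ max (W y ^ M) (W z ^ M) := by
      rcases le_max_iff.1 (W.map_add y z) with h | h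
      · exact le_max_of_le_left (pow_le_pow_left₀ zero_le h M)
      · exact le_max_of_le_right (pow_le_pow_left₀ zero_le h M)
    rw [hord y hy, hord z hz, hord _ hyz] at h
    rcases le_max_iff.1 h with h | h
    · exact min_le_of_left_le ((zpow_right_strictAnti₀ hP0 hP1).le_iff_ge.1 h)
    · exact min_le_of_right_le ((zpow_right_strictAnti₀ hP0 hP1).le_iff_ge.1 h)
  let w0 : E → ℝ := fun y => if y = 0 then 0 else (2 : ℝ) ^ (-ord y)
  have hw0 : ∀ y, 0 ≤ w0 y := fun y => by
    simp only [w0]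
    split
    · exact le_rfl
    · positivity
  have hmax : ∀ y z, w0 (y + z) ≤ max (w0 y) (w0 z) := by
    intro y z
    by_cases hyz : y + z = 0
    · rw [show w0 (y + z) = 0 by simp [w0, hyz]]
      exact le_max_of_le_left (hw0 y)
    by_cases hy : y = 0
    · simp [hy, w0]
    by_cases hz : z = 0
    · simp [hz, w0]
    simp only [w0, if_neg hyz, if_neg hy, if_neg hz]
    rcases min_le_iff.1 (hadd y z hy hz hyz) with h | h
    · exact le_max_of_le_left (zpow_le_zpow_right₀ one_le_two (neg_le_neg h))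
    · exact le_max_of_le_right (zpow_le_zpow_right₀ one_le_two (neg_le_neg h))
  let w : AbsoluteValue E ℝ :=
    { toFun := w0
      map_mul' := fun y z => by
        by_cases hy : y = 0
        · simp [w0, hy]
        by_cases hz : z = 0
        · simp [w0, hz]
        simp only [w0, if_neg hy, if_neg hz, if_neg (mul_ne_zero hy hz), hmul y z hy hz, neg_add]
        exact zpow_add₀ two_ne_zero _ _
      nonneg' := hw0
      eq_zero' := fun y => by
        simp only [w0]
        split
        · simp [*]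
        · simp [*, zpow_ne_zero]
      add_le' := fun y z =>
        (hmax y z).trans (max_le_add_of_nonneg (hw0 y) (hw0 z)) }
  have hwπ : ord (am π) = M := by
    apply hinj
    change P ^ ord (am π) = P ^ (M : ℤ)
    rw [← hord _ ((map_ne_zero am).2 hπ0), zpow_natCast]
  have hex' : ∃ d : ℕ, 0 < d ∧ ∃ y, y ≠ 0 ∧ ord y = d :=
    ⟨M, Nat.factorial_pos _, am π, (map_ne_zero am).2 hπ0, hwπ⟩
  set d := Nat.find hex' with hd
  obtain ⟨hd0, z, hz, hzd⟩ := Nat.find_spec hex'
  rw [← hd] at hd0 hzd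
  have hzpow : ∀ (j : ℤ), ord (z ^ j) = j * d := fun j => by
    apply hinj
    change P ^ ord (z ^ j) = P ^ (j * d)
    rw [← hord _ (zpow_ne_zero _ hz), map_zpow₀, mul_comm j, _root_.zpow_mul, ← hzd, ← hord z hz,
      ← zpow_natCast, ← zpow_natCast (W z) M, ← _root_.zpow_mul, ← _root_.zpow_mul, mul_comm]
  have hdvd : ∀ y, y ≠ 0 → (d : ℤ) ∣ ord y := by
    intro y hy
    have h1 : ord (y * z ^ (-(ord y / d))) = ord y % d := by
      rw [hmul _ _ hy (zpow_ne_zero _ hz), hzpow, Int.emod_def]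
      ring
    have h2 : 0 ≤ ord y % d := Int.emod_nonneg _ (by omega)
    have h3 : ord y % d < d := Int.emod_lt_of_pos _ (by omega)
    refine Int.dvd_of_emod_eq_zero (of_not_not fun h4 => ?_)
    exact Nat.find_min hex' (m := (ord y % d).toNat) (by omega)
      ⟨by omega, _, mul_ne_zero hy (zpow_ne_zero _ hz), by rw [h1]; omega⟩
  refine ⟨w, ⟨hmax, d * Real.log 2, mul_pos (by exact_mod_cast hd0) (Real.log_pos one_lt_two),
    fun y hy => ?_, z, hz, ?_⟩, fun x hx => ?_⟩
  · obtain ⟨m, hm⟩ := hdvd y hy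
    refine ⟨-m, ?_⟩
    change Real.log (w0 y) = _
    simp only [w0, if_neg hy, Real.log_zpow, hm]
    push_cast
    ring
  · change Real.log (w0 z) = _
    simp only [w0, if_neg hz, Real.log_zpow, hzd]
    push_cast
    ring
  · change w0 (am x) < 1
    by_cases hx0 : x = 0
    · simp [w0, hx0]
    have hax : am x ≠ 0 := (map_ne_zero am).2 hx0
    have ho : ord (am x) = -WithZero.log (v x) * M := by
      apply hinj
      change P ^ ord (am x) = P ^ (-WithZero.log (v x) * (M : ℤ))
      rw [← hord _ hax, hbase x hx0, _root_.zpow_mul, zpow_natCast]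
    have hneg : WithZero.log (v x) < 0 :=
      (WithZero.log_lt_iff_lt_exp (v.ne_zero_iff.2 hx0)).2 (by rwa [WithZero.exp_zero])
    simp only [w0, if_neg hax]
    apply zpow_lt_one_of_neg₀ one_lt_two
    rw [ho]
    exact neg_lt_zero.2 (mul_pos (neg_pos.2 hneg) (by exact_mod_cast Nat.factorial_pos _))

theorem lt_one_inv {E : Type} [Field E] {w : AbsoluteValue E ℝ} {t : E} (ht : t ≠ 0)
    (h : w t⁻¹ < 1) : 1 < w t := by
  rw [map_inv₀] at h
  exact (inv_lt_one₀ (w.pos ht)).1 h

/-- A transcendental element is large at some discrete absolute value. -/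
theorem exists_place_trans {P : Type} [Field P] [Algebra P L] (S : Finset L) {t : L}
    (ht : Transcendental P t) :
    ∃ (E : Subfield L) (w : AbsoluteValue E ℝ) (t' : E),
      (S : Set L) ⊆ E ∧ (t' : L) = t ∧ Disc w ∧ 1 < w t' := by
  classical
  set u := t⁻¹ with hu
  have ht0 : t ≠ 0 := fun e => ht (e ▸ isAlgebraic_zero)
  have hut : Transcendental P u := fun h => ht (IsAlgebraic.inv_iff.1 h)
  have hind : (AlgebraicIndependent.matroid P L).Indep {u} := by
    rw [AlgebraicIndependent.matroid_indep_iff]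
    exact (algebraicIndependent_singleton_iff (⟨u, rfl⟩ : ({u} : Set L))).2 hut
  obtain ⟨B, hB, huB⟩ := hind.subset_isBasis_of_subset (X := insert u (S : Set L))
    (Set.singleton_subset_iff.2 (Set.mem_insert _ _)) (by simp)
  obtain ⟨hBi, -, halg⟩ := AlgebraicIndependent.matroid_isBasis_iff.1 hB
  set B' := B \ {u} with hB'
  have hins : insert u B' = B := by
    rw [hB', Set.insert_sdiff_singleton, Set.insert_eq_of_mem (huB rfl)]
  rw [← hins, AlgebraicIndepOn.insert_iff (by simp [hB'])] at hBi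
  set k' := IntermediateField.adjoin P B'
  have huk : Transcendental k' u := by
    rw [IntermediateField.transcendental_adjoin_iff]
    have h2 := hBi.2
    rw [Set.image_id] at h2
    exact h2
  let g : RatFunc k' →ₐ[k'] L := RatFunc.liftAlgHom (Polynomial.aeval u)
    (nonZeroDivisors_le_comap_nonZeroDivisors_of_injective _
      (transcendental_iff_injective.1 huk))
  set k := g.toRingHom.fieldRange
  let e : RatFunc k' ≃+* k := RingEquiv.ofBijective g.toRingHom.rangeRestrictField
    g.toRingHom.rangeRestrictField_bijective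
  let v : Valuation k ℤᵐ⁰ :=
    ((Polynomial.idealX k').valuation (RatFunc k')).comap e.symm.toRingHom
  have hgX : g RatFunc.X = u := by
    rw [← RatFunc.algebraMap_X]
    simp [g, RatFunc.liftAlgHom_apply]
  have hsub : (Algebra.adjoin P B : Set L) ⊆ k := by
    intro a ha
    refine Algebra.adjoin_induction (fun b hb => ?_) (fun r => ?_)
      (fun b c _ _ hb hc => add_mem hb hc) (fun b c _ _ hb hc => mul_mem hb hc) ha
    · rw [← hins] at hb
      rcases hb with rfl | hb
      · exact ⟨RatFunc.X, hgX⟩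
      · exact ⟨algebraMap k' _ ⟨b, IntermediateField.subset_adjoin P B' hb⟩, g.commutes _⟩
    · exact ⟨algebraMap k' _ (algebraMap P k' r), (g.commutes _).trans
        (IsScalarTower.algebraMap_apply P k' L r).symm⟩
  have hS : ∀ x ∈ (S : Set L), IsIntegral k x := fun x hx => by
    refine IsAlgebraic.isIntegral ?_
    exact (halg x (Set.mem_insert_of_mem _ hx)).ringHom_of_comp_eq
      (f := ({ toFun := fun a => ⟨a.1, hsub a.2⟩, map_one' := rfl, map_mul' := fun _ _ => rfl,
               map_zero' := rfl, map_add' := fun _ _ => rfl } : Algebra.adjoin P B →+* k))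
      (g := RingHom.id L) (fun a b h => Subtype.ext (congrArg (fun z : k => (z : L)) h)) rfl
  set E0 := IntermediateField.adjoin k (S : Set L)
  have : FiniteDimensional k E0 := IntermediateField.finiteDimensional_adjoin hS
  obtain ⟨w, hw, hlt⟩ := exists_ext (E := E0) v (π := e RatFunc.X) (by simp [v])
  refine ⟨E0.toSubfield, w, ⟨t, ?_⟩, IntermediateField.subset_adjoin _ _, rfl, hw, ?_⟩
  · rw [← inv_inv t, ← hu, ← hgX]
    exact inv_mem (E0.algebraMap_mem (e RatFunc.X))
  · apply lt_one_inv (fun h => ht0 (congrArg Subtype.val h))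
    convert hlt (e RatFunc.X) (by
      rw [show v (e RatFunc.X) = WithZero.exp (-1 : ℤ) by simp [v], ← WithZero.exp_zero,
        WithZero.exp_lt_exp]
      norm_num) using 2
    apply Subtype.ext
    exact hgX.symm

/-- A nonintegral element of a number field is large at some prime. -/
theorem exists_place_numberField {E : Type} [Field E] [NumberField E] {t : E}
    (ht : ¬ IsIntegral ℤ t) : ∃ w : AbsoluteValue E ℝ, Disc w ∧ 1 < w t := by
  obtain ⟨p, hp⟩ : ∃ p : IsDedekindDomain.HeightOneSpectrum (NumberField.RingOfIntegers E),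
      1 < p.valuation E t := by
    by_contra hc
    simp only [not_exists, not_lt] at hc
    obtain ⟨r, hr⟩ := IsDedekindDomain.HeightOneSpectrum.mem_integers_of_valuation_le_one E t hc
    exact ht (hr ▸ NumberField.RingOfIntegers.isIntegral_coe r)
  obtain ⟨π, hπ⟩ := p.valuation_exists_uniformizer E
  obtain ⟨w, hw, hlt⟩ := exists_ext (E := E) (p.valuation E) hπ
  refine ⟨w, hw, lt_one_inv (fun e => by simp [e] at hp) ?_⟩
  exact hlt t⁻¹ (by rw [map_inv₀]; exact inv_lt_one_of_one_lt₀ hp)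

/-- A subfield with the lifts of generators carries the homomorphism. -/
theorem exists_sub {ψ : Γ →* PG L} {T : Set Γ} (hT : Subgroup.closure T = ⊤)
    {lift : Γ → SpecialLinearGroup (Fin 2) L} (hl : ∀ γ, toPG (lift γ) = ψ γ) (E : Subfield L)
    (hE : ∀ γ ∈ T, ∀ i j, (lift γ).1 i j ∈ E) :
    ∃ ψE : Γ →* PG E, (PGmap E.subtype).comp ψE = ψ ∧
      ∀ x ∈ grp ψ, ∃ y ∈ grp ψE, SpecialLinearGroup.map E.subtype y = x := by
  set H := (toPG.comp (SpecialLinearGroup.map E.subtype)).range
  have hr : ψ.range ≤ H := by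
    rw [MonoidHom.range_eq_map, ← hT, MonoidHom.map_closure, Subgroup.closure_le]
    rintro _ ⟨γ, hγ, rfl⟩
    refine ⟨⟨Matrix.of fun i j => ⟨(lift γ).1 i j, hE γ hγ i j⟩, ?_⟩, ?_⟩
    · apply E.subtype.injective
      rw [RingHom.map_det, map_one]
      exact (lift γ).2
    · exact hl γ
  have hmem : ∀ γ, ψ γ ∈ (PGmap E.subtype).range := fun γ => by
    obtain ⟨y, hy⟩ := hr ⟨γ, rfl⟩
    exact ⟨toPG y, by rw [PGmap_toPG]; exact hy⟩
  let ψE : Γ →* PG E := (MonoidHom.ofInjective (PGmap_injective E.subtype)).symm.toMonoidHom.comp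
    (ψ.codRestrict _ hmem)
  have hψE : ∀ γ, PGmap E.subtype (ψE γ) = ψ γ := fun γ => by
    simp [ψE, MonoidHom.apply_ofInjective_symm]
  refine ⟨ψE, MonoidHom.ext hψE, fun x hx => ?_⟩
  obtain ⟨γ, hγ⟩ := hx
  obtain ⟨y, hy⟩ := hr ⟨γ, rfl⟩
  obtain ⟨a, ha, hxy⟩ := toPG_eq (hγ.symm.trans hy.symm)
  have hmemE : ∀ i j, x.1 i j ∈ E := fun i j => by
    rw [hxy i j]
    refine mul_mem ?_ ?_
    · rcases ha with rfl | rfl
      · exact one_mem E
      · exact neg_mem (one_mem E)
    · simp
  let z : SpecialLinearGroup (Fin 2) E := ⟨Matrix.of fun i j => ⟨x.1 i j, hmemE i j⟩, by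
    apply E.subtype.injective
    rw [RingHom.map_det, map_one]
    exact x.2⟩
  have hz : SpecialLinearGroup.map E.subtype z = x := Subtype.ext rfl
  refine ⟨z, ⟨γ, PGmap_injective E.subtype ?_⟩, hz⟩
  rw [hψE, PGmap_toPG, hz, hγ]

theorem tra_map {E : Type} [Field E] (f : E →+* L) (y : SpecialLinearGroup (Fin 2) E) :
    tra (SpecialLinearGroup.map f y) = f (tra y) := by
  simp [tra]

omit [Group Γ] in
theorem entries_finite_card (T : Finset Γ) (lift : Γ → SpecialLinearGroup (Fin 2) L) :
    ∃ S : Finset L, ∀ γ ∈ T, ∀ i j, (lift γ).1 i j ∈ S := by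
  classical
  exact ⟨T.biUnion fun γ => Finset.univ.image fun p : Fin 2 × Fin 2 => (lift γ).1 p.1 p.2,
    fun γ hγ i j => Finset.mem_biUnion.2
      ⟨γ, hγ, Finset.mem_image.2 ⟨(i, j), Finset.mem_univ _, rfl⟩⟩⟩

/-- The conclusion at a discrete absolute value on a subfield. -/
theorem conclude {ψ : Γ →* PG L} (hψ : NotVS ψ) {T : Set Γ} (hT : Subgroup.closure T = ⊤)
    {lift : Γ → SpecialLinearGroup (Fin 2) L} (hl : ∀ γ, toPG (lift γ) = ψ γ) (E : Subfield L)
    (hE : ∀ γ ∈ T, ∀ i j, (lift γ).1 i j ∈ E) {x : SpecialLinearGroup (Fin 2) L}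
    (hx : x ∈ grp ψ) {a : L} (ha : a * a - tra x * a + 1 = 0) (haE : a ∈ E)
    {w : AbsoluteValue E ℝ} (hw : Disc w) {t : E} (htx : (t : L) = tra x) (ht : 1 < w t) :
    ∃ (E : Type) (_ : Field E) (v : AbsoluteValue E ℝ) (ψ : Γ →* PG E),
      Disc v ∧ NotVS ψ ∧ HasHyp v ψ := by
  obtain ⟨ψE, hcomp, hgrp⟩ := exists_sub hT hl E hE
  obtain ⟨y, hy, hyx⟩ := hgrp x hx
  have hψE : NotVS ψE := NotVS.of_comp (PGmap E.subtype) (hcomp ▸ hψ)
  have htr : tra y = t := E.subtype.injective (by rw [← tra_map, hyx]; exact htx.symm)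
  have ha' : (⟨a, haE⟩ : E) * ⟨a, haE⟩ - tra y * ⟨a, haE⟩ + 1 = 0 := by
    apply E.subtype.injective
    rw [map_add, map_sub, map_mul, map_mul, map_one, map_zero, ← tra_map, hyx]
    exact ha
  obtain ⟨c, hc, hc1⟩ := exists_big_root (v := w) ha'
    (fun u z hu hz => (hw.1 u z).trans (max_le hu hz)) (R := 1) (by rwa [htr])
  obtain ⟨Q, hQ⟩ := hasHyp_cj hy hc hc1
  exact ⟨E, inferInstance, w, _, hw, hψE.cj Q, hQ⟩

/-- If all traces are algebraic then so are all entries. -/
theorem entries_algebraic {P : Type} [Field P] [Algebra P L] [IsAlgClosed L] {ψ : Γ →* PG L}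
    {g h : SpecialLinearGroup (Fin 2) L} (hg : g ∈ grp ψ) (hh : h ∈ grp ψ)
    (hg01 : g.1 0 1 = 0) (hg10 : g.1 1 0 = 0) (hne : g.1 0 0 ≠ g.1 1 1) (hh10 : h.1 1 0 = 1)
    (hh01 : h.1 0 1 ≠ 0) (halg : ∀ x ∈ grp ψ, IsAlgebraic P (tra x))
    {x : SpecialLinearGroup (Fin 2) L} (hx : x ∈ grp ψ) (i j : Fin 2) :
    IsAlgebraic P (x.1 i j) := by
  set A := algebraicClosure P L
  have htr : ∀ z ∈ grp ψ, tra z ∈ A := fun z hz => mem_algebraicClosure_iff.2 (halg z hz)
  have hdg := det2 g
  rw [hg01, zero_mul, sub_zero] at hdg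
  have hga : g.1 0 0 ∈ A ∧ g.1 1 1 ∈ A := by
    have : IsAlgClosed A := IsAlgClosure.isAlgClosed P
    obtain ⟨b, hb⟩ := IsAlgClosed.exists_root (Polynomial.C (1 : A) * Polynomial.X ^ 2 +
      Polynomial.C (-(⟨tra g, htr g hg⟩ : A)) * Polynomial.X + Polynomial.C 1)
      (by rw [Polynomial.degree_quadratic one_ne_zero]; decide)
    simp only [Polynomial.IsRoot, Polynomial.eval_add, Polynomial.eval_mul, Polynomial.eval_pow,
      Polynomial.eval_C, Polynomial.eval_X] at hb
    have hb' : (b : L) * b - tra g * b + 1 = 0 := by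
      have := congrArg (fun z : A => (z : L)) hb
      simp at this
      linear_combination this
    have h00 : g.1 0 0 ∈ A := by
      have : (g.1 0 0 - b) * (g.1 0 0 - (b : L)⁻¹) = 0 := by
        have hb0 := root_ne_zero hb'
        have e := root_tra hb'
        rw [tra] at e
        linear_combination -g.1 0 0 * e - hdg + mul_inv_cancel₀ hb0
      rcases mul_eq_zero.1 this with h | h
      · exact sub_eq_zero.1 h ▸ b.2
      · exact sub_eq_zero.1 h ▸ inv_mem b.2
    refine ⟨h00, ?_⟩
    rw [show g.1 1 1 = tra g - g.1 0 0 by rw [tra]; ring]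
    exact sub_mem (htr g hg) h00
  have hn : g.1 0 0 - g.1 1 1 ≠ 0 := sub_ne_zero.2 hne
  have h00 : h.1 0 0 ∈ A := by
    rw [show h.1 0 0 = (tra (g * h) - g.1 1 1 * tra h) / (g.1 0 0 - g.1 1 1) by
      simp only [tra, coe_mul2, hg01, hg10]; field_simp; ring]
    exact div_mem (sub_mem (htr _ (mul_mem hg hh)) (mul_mem hga.2 (htr _ hh))) (sub_mem hga.1 hga.2)
  have h11 : h.1 1 1 ∈ A := by
    rw [show h.1 1 1 = tra h - h.1 0 0 by rw [tra]; ring]
    exact sub_mem (htr _ hh) h00
  have h01 : h.1 0 1 ∈ A := by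
    rw [show h.1 0 1 = h.1 0 0 * h.1 1 1 - 1 by
      have := det2 h
      rw [hh10] at this
      linear_combination -this]
    exact sub_mem (mul_mem h00 h11) (one_mem A)
  obtain ⟨e00, e11, e10, e01⟩ := recover hg01 hg10 hne hh10 hh01 x
  have t0 := htr x hx
  have t1 := htr _ (mul_mem hx hg)
  have t2 := htr _ (mul_mem hx hh)
  have t3 := htr _ (mul_mem (mul_mem hx hg) hh)
  have hw := div_mem (sub_mem t1 (mul_mem hga.2 t0)) (sub_mem hga.1 hga.2)
  have hk := div_mem (sub_mem t3 (mul_mem hga.2 t2)) (sub_mem hga.1 hga.2)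
  rw [← mem_algebraicClosure_iff]
  fin_cases i <;> fin_cases j <;> simp only [Fin.zero_eta, Fin.mk_one, e00, e01, e10, e11]
  · exact hw
  · exact sub_mem (sub_mem t2 hk) (mul_mem (sub_mem t0 hw) h11)
  · exact div_mem (sub_mem hk (mul_mem hw h00)) h01
  · exact sub_mem t0 hw

/-- Finitely many traces make the group finite. -/
theorem traces_infinite [IsAlgClosed L] {ψ : Γ →* PG L} (hψ : NotVS ψ)
    {g h : SpecialLinearGroup (Fin 2) L} (hg : g ∈ grp ψ) (hh : h ∈ grp ψ)
    (hg01 : g.1 0 1 = 0) (hg10 : g.1 1 0 = 0) (hne : g.1 0 0 ≠ g.1 1 1) (hh10 : h.1 1 0 = 1)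
    (hh01 : h.1 0 1 ≠ 0) : ¬ (tra '' (grp ψ : Set (SpecialLinearGroup (Fin 2) L))).Finite := by
  intro hfin
  refine grp_infinite hψ (Set.Finite.of_finite_image
    (f := fun x => (tra x, tra (x * g), tra (x * h), tra (x * g * h))) ?_ ?_)
  · refine (hfin.prod (hfin.prod (hfin.prod hfin))).subset ?_
    rintro _ ⟨x, hx, rfl⟩
    exact ⟨⟨x, hx, rfl⟩, ⟨_, mul_mem hx hg, rfl⟩, ⟨_, mul_mem hx hh, rfl⟩,
      ⟨_, mul_mem (mul_mem hx hg) hh, rfl⟩⟩
  · intro x _ y _ hxy
    simp only [Prod.mk.injEq] at hxy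
    obtain ⟨a00, a11, a10, a01⟩ := recover hg01 hg10 hne hh10 hh01 x
    obtain ⟨b00, b11, b10, b01⟩ := recover hg01 hg10 hne hh10 hh01 y
    obtain ⟨q0, q1, q2, q3⟩ := hxy
    apply ext2
    · rw [a00, b00, q0, q1]
    · rw [a01, b01, q0, q1, q2, q3]
    · rw [a10, b10, q0, q1, q2, q3]
    · rw [a11, b11, q0, q1]

theorem place : PlaceOK := by
  intro Γ K _ _ hfg φ hφ
  classical
  set L := AlgebraicClosure K
  let f : GL (Fin 2) K →* PG L :=
    (QuotientGroup.mk' _).comp (GeneralLinearGroup.map (algebraMap K L))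
  have hf : f.ker ≤ Subgroup.center _ := fun x hx => by
    obtain ⟨h01, h10, hd⟩ := mem_center2 ((QuotientGroup.eq_one_iff _).1 hx)
    exact center2 ((algebraMap K L).injective (by simpa using h01))
      ((algebraMap K L).injective (by simpa using h10))
      ((algebraMap K L).injective (by simpa using hd))
  obtain ⟨ψ, hψ, g, hg, h, hh, hg01, hg10, hne, hh10, hh01⟩ := exists_frame (hφ.of_ker f hf)
  obtain ⟨T, hT, hTfin⟩ := Group.fg_iff.1 hfg
  choose lift hl using fun γ => toPG_surjective (L := L) (ψ γ)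
  obtain ⟨S, hS⟩ := entries_finite_card hTfin.toFinset lift
  have hST : ∀ γ ∈ T, ∀ i j, (lift γ).1 i j ∈ S := fun γ hγ => hS γ (hTfin.mem_toFinset.2 hγ)
  have hSgrp : ∀ γ, lift γ ∈ grp ψ := fun γ => ⟨γ, (hl γ).symm⟩
  have trans_case : ∀ (P : Type) [Field P] [Algebra P L],
      (∃ x ∈ grp ψ, ¬ IsAlgebraic P (tra x)) →
      ∃ (E : Type) (_ : Field E) (v : AbsoluteValue E ℝ) (ψ : Γ →* PG E),
        Disc v ∧ NotVS ψ ∧ HasHyp v ψ := by
    rintro P _ _ ⟨x, hx, htx⟩
    obtain ⟨a, ha⟩ := exists_root_tra x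
    obtain ⟨E, w, t, hsub, he, hw, ht⟩ := exists_place_trans (insert a S) (P := P) htx
    exact conclude hψ hT hl E (fun γ hγ i j => hsub (Finset.mem_insert_of_mem (hST γ hγ i j))) hx
      ha (hsub (Finset.mem_insert_self a S)) hw he ht
  obtain ⟨p, hp⟩ := CharP.exists L
  rcases CharP.char_is_prime_or_zero L p with hprime | rfl
  · right
    have := Fact.mk hprime
    let _ : Algebra (ZMod p) L := ZMod.algebra L p
    by_cases halg : ∀ x ∈ grp ψ, IsAlgebraic (ZMod p) (tra x)
    swap
    · exact trans_case (ZMod p) (by simpa using halg)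
    exfalso
    set F := IntermediateField.adjoin (ZMod p)
      (Set.ofPred fun l => ∃ γ ∈ T, ∃ i j, (lift γ).1 i j = l)
    have : Finite (Set.ofPred fun l => ∃ γ ∈ T, ∃ i j, (lift γ).1 i j = l) :=
      (S.finite_toSet.subset fun l hl' => by
        obtain ⟨γ, hγ, i, j, rfl⟩ := hl'
        exact hST γ hγ i j).to_subtype
    have : FiniteDimensional (ZMod p) F := IntermediateField.finiteDimensional_adjoin fun l hl' => by
      obtain ⟨γ, -, i, j, rfl⟩ := hl'
      exact (entries_algebraic hg hh hg01 hg10 hne hh10 hh01 halg (hSgrp γ) i j).isIntegral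
    have : Finite F := Module.finite_of_finite (ZMod p)
    obtain ⟨ψF, -, hgrp⟩ := exists_sub hT hl F.toSubfield fun γ hγ i j =>
      IntermediateField.subset_adjoin _ _ ⟨γ, hγ, i, j, rfl⟩
    refine grp_infinite hψ ((Set.finite_range (SpecialLinearGroup.map (n := Fin 2)
      F.toSubfield.subtype)).subset fun x hx => ?_)
    obtain ⟨y, -, hy⟩ := hgrp x hx
    exact ⟨y, hy⟩
  · have := CharP.charP_to_charZero L
    by_cases halg : ∀ x ∈ grp ψ, IsAlgebraic ℚ (tra x)
    swap
    · exact Or.inr (trans_case ℚ (by simpa using halg))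
    have hint : ∀ x ∈ grp ψ, ∀ i j, IsIntegral ℚ (x.1 i j) := fun x hx i j =>
      (entries_algebraic hg hh hg01 hg10 hne hh10 hh01 halg hx i j).isIntegral
    by_cases hZ : ∀ x ∈ grp ψ, IsIntegral ℤ (tra x)
    swap
    · right
      push Not at hZ
      obtain ⟨x, hx, htx⟩ := hZ
      obtain ⟨a, ha⟩ := exists_root_tra x
      have hai : IsIntegral ℚ a := by
        set A := algebraicClosure ℚ L
        have : Algebra.IsAlgebraic ℚ A := algebraicClosure.isAlgebraic ℚ L
        have : IsIntegral A a := ⟨Polynomial.X ^ 2 - Polynomial.C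
          (⟨tra x, mem_algebraicClosure_iff.2 (halg x hx)⟩ : A) * Polynomial.X + 1,
          by monicity!, by simp; linear_combination ha⟩
        exact isIntegral_trans (R := ℚ) a this
      set F := IntermediateField.adjoin ℚ
        (insert a (Set.ofPred fun l => ∃ γ ∈ T, ∃ i j, (lift γ).1 i j = l)) with hF
      have hEF : ∀ γ ∈ T, ∀ i j, (lift γ).1 i j ∈ F.toSubfield := fun γ hγ i j =>
        IntermediateField.subset_adjoin _ _ (Or.inr ⟨γ, hγ, i, j, rfl⟩)
      obtain ⟨ψF, -, hgrp⟩ := exists_sub hT hl F.toSubfield hEF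
      obtain ⟨y, -, hy⟩ := hgrp x hx
      have : Finite (insert a (Set.ofPred fun l => ∃ γ ∈ T, ∃ i j, (lift γ).1 i j = l) : Set L) :=
        ((S.finite_toSet.subset fun l hl' => by
          obtain ⟨γ, hγ, i, j, rfl⟩ := hl'
          exact hST γ hγ i j).insert a).to_subtype
      have hfd : FiniteDimensional ℚ F := IntermediateField.finiteDimensional_adjoin fun l hl' => by
        rcases hl' with rfl | ⟨γ, -, i, j, rfl⟩
        exacts [hai, hint _ (hSgrp γ) i j]
      have : CharZero F := inferInstance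
      have : NumberField F := { to_finiteDimensional := by convert hfd }
      have ht : ¬ IsIntegral ℤ (tra y : F) := fun hI => htx (by
        rw [← hy, tra_map]
        exact hI.map (F.toSubfield.subtype.toIntAlgHom))
      obtain ⟨w, hw, hwt⟩ := exists_place_numberField ht
      exact conclude hψ hT hl F.toSubfield hEF hx ha
        (IntermediateField.subset_adjoin _ _ (Or.inl rfl)) hw
        (t := tra y) (by rw [← hy, tra_map]; rfl) hwt
    · left
      set F := IntermediateField.adjoin ℚ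
        (Set.ofPred fun l => ∃ γ ∈ T, ∃ i j, (lift γ).1 i j = l) with hF
      obtain ⟨ψF, hcomp, hgrp⟩ := exists_sub hT hl F.toSubfield fun γ hγ i j =>
        IntermediateField.subset_adjoin _ _ ⟨γ, hγ, i, j, rfl⟩
      have : Finite (Set.ofPred fun l => ∃ γ ∈ T, ∃ i j, (lift γ).1 i j = l) :=
        (S.finite_toSet.subset fun l hl' => by
          obtain ⟨γ, hγ, i, j, rfl⟩ := hl'
          exact hST γ hγ i j).to_subtype
      have hfd : FiniteDimensional ℚ F := IntermediateField.finiteDimensional_adjoin fun l hl' => by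
        obtain ⟨γ, -, i, j, rfl⟩ := hl'
        exact hint _ (hSgrp γ) i j
      have : NumberField F := { to_finiteDimensional := by convert hfd }
      obtain ⟨y, hy, σ, hσ⟩ : ∃ y ∈ grp ψF, ∃ σ : F →+* ℂ, 2 < ‖σ (tra y)‖ := by
        by_contra hc
        apply traces_infinite hψ hg hh hg01 hg10 hne hh10 hh01
        refine ((NumberField.Embeddings.finite_of_norm_le F ℂ (2 : ℝ)).image
          F.toSubfield.subtype).subset ?_
        rintro _ ⟨x, hx, rfl⟩
        obtain ⟨y, hy, hyx⟩ := hgrp x hx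
        refine ⟨tra y, ⟨?_, fun σ => ?_⟩, by rw [← tra_map, hyx]⟩
        · refine (isIntegral_algHom_iff (F.toSubfield.subtype.toIntAlgHom)
            F.toSubfield.subtype.injective).1 ?_
          change IsIntegral ℤ (F.toSubfield.subtype (tra y))
          rw [← tra_map, hyx]
          exact hZ x hx
        · by_contra hlt
          exact hc ⟨y, hy, σ, not_le.1 hlt⟩
      have hψF : NotVS ψF := NotVS.of_comp (PGmap F.toSubfield.subtype) (hcomp ▸ hψ)
      have hψC : NotVS ((PGmap σ).comp ψF) := hψF.of_ker _ (by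
        rw [(MonoidHom.ker_eq_bot_iff _).2 (PGmap_injective σ)]
        exact bot_le)
      obtain ⟨γ, hγ⟩ := hy
      have hyC : SpecialLinearGroup.map σ y ∈ grp ((PGmap σ).comp ψF) := by
        refine ⟨γ, ?_⟩
        rw [MonoidHom.comp_apply, hγ, PGmap_toPG]
      obtain ⟨a, ha⟩ := exists_root_tra (SpecialLinearGroup.map σ y)
      obtain ⟨c, hc, hc1⟩ := exists_big_root (v := NormedField.toAbsoluteValue ℂ) ha
        (fun u z hu hz => (norm_add_le u z).trans (by
          change ‖u‖ ≤ 1 at hu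
          change ‖z‖ ≤ 1 at hz
          linarith)) (R := 2) (by rw [tra_map]; exact hσ)
      obtain ⟨Q, hQ⟩ := hasHyp_cj hyC hc hc1
      exact ⟨_, hψC.cj Q, hQ⟩

end Vale.Agent.P165.GL2
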