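import Vale.Agent.P165.GL2.Main
import Vale.Agent.P165.GL2.Place

/-!
# Linear images of degree two without a finiteness hypothesis on the group

A group with a free action with finitely many orbits on a connected locally finite graph is
finitely generated, and so is a subgroup of finite index of a finitely generated group.
-/

namespace Vale.Agent.P165.GL2

open scoped MatrixGroups

variable {Γ : Type} [Group Γ]

/-- A free cofinite action on a connected regular graph forces finite generation. -/
theorem fg_of_free_cofinite {V : Type} {G : SimpleGraph V} {d : ℕ} (hG : G.Connected)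
    (hd : ∀ v, (G.neighborSet v).encard = d) (Φ : Γ →* (G ≃g G))
    (free : ∀ g v, Φ g v = v → g = 1) (R : Finset V) (cover : ∀ v, ∃ g, Φ g v ∈ R) :
    Group.FG Γ := by
  have key : ∀ g h v, Φ (g * h) v = Φ g (Φ h v) := fun g h v => by rw [map_mul]; rfl
  set N : Set V := (R : Set V) ∪ ⋃ r ∈ R, G.neighborSet r with hN
  have hNf : N.Finite := R.finite_toSet.union
    (R.finite_toSet.biUnion fun r _ => Set.finite_of_encard_eq_coe (hd r))
  set S : Set Γ := ⋃ r ∈ R, (fun g => Φ g r) ⁻¹' N with hS
  have hSf : S.Finite := R.finite_toSet.biUnion fun r _ => hNf.preimage fun a _ b _ h => by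
    have h' : Φ a r = Φ b r := h
    have : Φ (b⁻¹ * a) r = r := by
      rw [key, h', ← key, inv_mul_cancel, map_one]
      rfl
    exact (inv_mul_eq_one.1 (free _ _ this)).symm
  have hmemS : ∀ g r, r ∈ R → Φ g r ∈ N → g ∈ S := fun g r hr h => Set.mem_biUnion hr h
  set H := Subgroup.closure S with hH
  have hW : ∀ v w, G.Adj v w → (∃ h ∈ H, Φ h v ∈ R) → ∃ h ∈ H, Φ h w ∈ R := by
    rintro v w hvw ⟨h, hh, hv⟩
    obtain ⟨k, hk⟩ := cover w
    refine ⟨k, ?_, hk⟩
    have hkv : Φ (k * h⁻¹) (Φ h v) = Φ k v := by rw [← key, inv_mul_cancel_right]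
    have h1 : k * h⁻¹ ∈ H := Subgroup.subset_closure (hmemS _ _ hv (by
      rw [hkv]
      exact Or.inr (Set.mem_biUnion hk ((Φ k).map_rel_iff.2 hvw.symm))))
    simpa using H.mul_mem h1 hh
  obtain ⟨v0⟩ := hG.nonempty
  obtain ⟨g0, hg0⟩ := cover v0
  have hall : ∀ v, ∃ h ∈ H, Φ h v ∈ R := fun v => by
    obtain ⟨p⟩ := hG.preconnected (Φ g0 v0) v
    have base : ∃ h ∈ H, Φ h (Φ g0 v0) ∈ R := ⟨1, H.one_mem, by rw [map_one]; exact hg0⟩
    clear_value H
    generalize Φ g0 v0 = u at p base
    induction p with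
    | nil => exact base
    | cons h _ ih => exact ih (hW _ _ h base)
  refine Group.fg_iff.2 ⟨S, (Subgroup.eq_top_iff' _).2 fun g => ?_, hSf⟩
  obtain ⟨h, hh, hr⟩ := hall (Φ g⁻¹ (Φ g0 v0))
  rw [← key] at hr
  have h1 : h * g⁻¹ ∈ H := Subgroup.subset_closure (hmemS _ _ hg0 (Or.inl hr))
  simpa using H.mul_mem (H.inv_mem h1) hh

/-- It suffices to treat finitely generated groups. -/
theorem nonuniquePhase_of_fg (h : Group.FG Γ → SG.NonuniquePhase Γ) : SG.NonuniquePhase Γ := by
  refine ⟨fun V G d hG hd Φ free R cover => ?_, fun Δ _ s hs hgen ψ hψ hidx => ?_⟩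
  · exact (h (fg_of_free_cofinite hG hd Φ free R cover)).1 V G d hG hd Φ free R cover
  · have hΔ : Group.FG Δ := Group.fg_iff.2 ⟨s, hgen, hs⟩
    have hr : Group.FG ψ.range := inferInstance
    have hΓ : Group.FG Γ := Group.fg_of_surjective
      (f := (MonoidHom.ofInjective hψ).symm.toMonoidHom) (MonoidHom.ofInjective hψ).symm.surjective
    exact (h hΓ).2 Δ s hs hgen ψ hψ hidx

/-- Every group with an image in `GL(2, K)` that is not virtually solvable has a nonuniqueness
phase, for every field `K`. -/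
theorem nonuniquePhase_of_image {K : Type} [Field K] (φ : Γ →* GL (Fin 2) K) (h : NotVS φ) :
    SG.NonuniquePhase Γ :=
  nonuniquePhase_of_fg fun hfg => nonuniquePhase_of_placeOK place hfg φ h

end Vale.Agent.P165.GL2
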