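import Mathlib

/-!
# Linear images in degree two: the statements shared by the pieces
-/

namespace Vale.Agent.P165.GL2

open scoped MatrixGroups

/-- The projective group of degree two. -/
abbrev PG (F : Type) [Field F] : Type := GL (Fin 2) F ⧸ Subgroup.center (GL (Fin 2) F)

/-- No subgroup of finite index has a solvable image. -/
def NotVS {Γ H : Type} [Group Γ] [Group H] (φ : Γ →* H) : Prop :=
  ∀ S : Subgroup Γ, S.FiniteIndex → ¬ Group.IsSolvable (S.map φ)

/-- A nonarchimedean absolute value whose logarithms are the integer multiples of one step. -/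
def Disc {F : Type} [Field F] (v : AbsoluteValue F ℝ) : Prop :=
  (∀ x y, v (x + y) ≤ max (v x) (v y)) ∧
    ∃ u : ℝ, 0 < u ∧ (∀ x, x ≠ 0 → ∃ m : ℤ, Real.log (v x) = m * u) ∧
      ∃ x, x ≠ 0 ∧ Real.log (v x) = -u

/-- The class of an invertible diagonal matrix with entries `l` and `1`. -/
noncomputable def dg {F : Type} [Field F] (l : Fˣ) : PG F :=
  QuotientGroup.mk (Matrix.GeneralLinearGroup.mkOfDetNeZero !![(l : F), 0; 0, 1]
    (by simp [Matrix.det_fin_two]))

/-- A hyperbolic diagonal element at an absolute value. -/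
def HasHyp {Γ F : Type} [Group Γ] [Field F] (v : AbsoluteValue F ℝ) (ψ : Γ →* PG F) : Prop :=
  ∃ (γ : Γ) (l : Fˣ), ψ γ = dg l ∧ 1 < v l

/-- The algebraic piece: a place at which the image has a hyperbolic element. -/
def PlaceOK : Prop :=
  ∀ (Γ K : Type) [Group Γ] [Field K], Group.FG Γ → ∀ φ : Γ →* GL (Fin 2) K, NotVS φ →
    (∃ ψ : Γ →* PG ℂ, NotVS ψ ∧ HasHyp (NormedField.toAbsoluteValue ℂ) ψ) ∨
    ∃ (E : Type) (_ : Field E) (v : AbsoluteValue E ℝ) (ψ : Γ →* PG E),
      Disc v ∧ NotVS ψ ∧ HasHyp v ψ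

end Vale.Agent.P165.GL2
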