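import Vale.Agent.P165.GL2.Norm

/-!
# Two hyperbolic elements with four different ends

If a diagonal element is hyperbolic and no subgroup of finite index has a solvable image, some element
of the image has no zero entry. Conjugating by it gives the second hyperbolic element, and one entry
bounds all products from below.
-/

namespace Vale.Agent.P165.GL2

open Matrix
open scoped MatrixGroups

variable {F : Type} [Field F]

/-- The matrix of a class. -/
noncomputable def rep (x : PG F) : Matrix (Fin 2) (Fin 2) F :=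
  (x.out : GL (Fin 2) F)

theorem rep_mk (g : GL (Fin 2) F) : ∃ s : F, s ≠ 0 ∧
    rep (QuotientGroup.mk g : PG F) = s • (g : Matrix (Fin 2) (Fin 2) F) := by
  obtain ⟨⟨z, hz⟩, e⟩ := QuotientGroup.mk_out_eq_mul (Subgroup.center (GL (Fin 2) F)) g
  rw [Matrix.GeneralLinearGroup.center_eq_range_scalar] at hz
  obtain ⟨u, rfl⟩ := hz
  refine ⟨u, u.ne_zero, ?_⟩
  rw [rep, e]
  simp [Matrix.GeneralLinearGroup.scalar, Matrix.scalar_apply, ← Matrix.smul_eq_mul_diagonal]

theorem rep_det (x : PG F) : (rep x).det ≠ 0 := det_ne x.out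

theorem rep_mul (x y : PG F) : ∃ s : F, s ≠ 0 ∧ rep (x * y) = s • (rep x * rep y) := by
  obtain ⟨s, hs, e⟩ := rep_mk (x.out * y.out)
  rw [QuotientGroup.mk_mul, QuotientGroup.out_eq', QuotientGroup.out_eq'] at e
  exact ⟨s, hs, e⟩

theorem rep_one : ∃ s : F, s ≠ 0 ∧ rep (1 : PG F) = s • (1 : Matrix (Fin 2) (Fin 2) F) :=
  rep_mk 1

theorem rep_dg (l : Fˣ) : ∃ s : F, s ≠ 0 ∧ rep (dg l) = s • !![(l : F), 0; 0, 1] := rep_mk _

theorem dg_mul (l m : Fˣ) : dg (l * m) = dg l * dg m := by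
  rw [dg, dg, dg, ← QuotientGroup.mk_mul]
  congr 1
  ext i j
  fin_cases i <;> fin_cases j <;> simp [Matrix.mul_apply, Fin.sum_univ_two]

theorem dg_one : dg (1 : Fˣ) = 1 := by
  rw [dg, ← QuotientGroup.mk_one]
  congr 1
  ext i j
  fin_cases i <;> fin_cases j <;> simp

/-- The diagonal classes. -/
noncomputable def dgHom : Fˣ →* PG F where
  toFun := dg
  map_one' := dg_one
  map_mul' := dg_mul

/-! ### An element of the image with no zero entry -/

/-- All entries of a class are nonzero. -/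
def Full (x : PG F) : Prop := ∀ i j, rep x i j ≠ 0

/-- The class is upper triangular. -/
def Upper (x : PG F) : Prop := rep x 1 0 = 0

/-- The class is lower triangular. -/
def Lower (x : PG F) : Prop := rep x 0 1 = 0

/-- The class exchanges the two axes. -/
def Swap (x : PG F) : Prop := rep x 0 0 = 0 ∧ rep x 1 1 = 0

theorem entries (x : PG F) : rep x 0 0 * rep x 1 1 - rep x 0 1 * rep x 1 0 ≠ 0 := by
  rw [← det_fin_two]; exact rep_det x

/-- The upper triangular classes of an image have a solvable image. -/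
theorem solvable_of_tri (S : Subgroup (PG F)) (h : (∀ x ∈ S, Upper x) ∨ ∀ x ∈ S, Lower x) :
    Group.IsSolvable S := by
  classical
  have hne : ∀ x ∈ S, rep x 0 0 ≠ 0 ∧ rep x 1 1 ≠ 0 := by
    intro x hx
    have hd := entries x
    rcases h with h | h <;>
    · have h0 := h x hx
      simp only [Upper, Lower] at h0
      rw [h0] at hd
      simp only [mul_zero, zero_mul, sub_zero] at hd
      exact mul_ne_zero_iff.1 hd
  have hmul : ∀ x ∈ S, ∀ y ∈ S,
      rep (x * y) 0 0 / rep (x * y) 1 1 = rep x 0 0 / rep x 1 1 * (rep y 0 0 / rep y 1 1) := by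
    intro x hx y hy
    obtain ⟨s, hs, e⟩ := rep_mul x y
    have n1 := (hne x hx).2
    have n2 := (hne y hy).2
    rw [e]
    simp only [Matrix.smul_apply, Matrix.mul_apply, Fin.sum_univ_two, smul_eq_mul]
    rcases h with h | h
    · rw [show rep x 1 0 = 0 from h x hx, show rep y 1 0 = 0 from h y hy]; field_simp; ring
    · rw [show rep x 0 1 = 0 from h x hx, show rep y 0 1 = 0 from h y hy]; field_simp; ring
  let χ : S →* F :=
    { toFun := fun x => rep x.1 0 0 / rep x.1 1 1
      map_one' := by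
        obtain ⟨s, hs, e⟩ := rep_one (F := F)
        simp [e, hs]
      map_mul' := fun x y => hmul x.1 x.2 y.1 y.2 }
  let g : S →* Fˣ := χ.toHomUnits
  have hker : ∀ a b : g.ker, a * b = b * a := by
    rintro ⟨⟨x, hx⟩, hgx⟩ ⟨⟨y, hy⟩, hgy⟩
    have kx : rep x 0 0 / rep x 1 1 = 1 := congrArg Units.val (MonoidHom.mem_ker.1 hgx)
    have ky : rep y 0 0 / rep y 1 1 = 1 := congrArg Units.val (MonoidHom.mem_ker.1 hgy)
    rw [div_eq_one_iff_eq (hne x hx).2] at kx
    rw [div_eq_one_iff_eq (hne y hy).2] at ky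
    have hxy : rep x * rep y = rep y * rep x := by
      ext i j
      rcases h with h | h <;>
      · have h1 := h x hx
        have h2 := h y hy
        simp only [Upper, Lower] at h1 h2
        fin_cases i <;> fin_cases j <;>
          simp [Matrix.mul_apply, Fin.sum_univ_two, h1, h2, kx, ky] <;> ring
    have hcomm : x * y = y * x := by
      have e : (x.out * y.out : GL (Fin 2) F) = y.out * x.out := Units.ext hxy
      calc x * y = (QuotientGroup.mk (x.out * y.out) : PG F) := by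
            rw [QuotientGroup.mk_mul, QuotientGroup.out_eq', QuotientGroup.out_eq']
        _ = (QuotientGroup.mk (y.out * x.out) : PG F) := by rw [e]
        _ = y * x := by rw [QuotientGroup.mk_mul, QuotientGroup.out_eq', QuotientGroup.out_eq']
    exact Subtype.ext (Subtype.ext hcomm)
  have : Group.IsSolvable g.ker := Group.isSolvable_of_comm hker
  exact Group.isSolvable_of_ker_le_range g.ker.subtype g (by rw [Subgroup.range_subtype])

variable {Γ : Type} [Group Γ]

/-- Some element of the image has no zero entry. -/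
theorem exists_full {ψ : Γ →* PG F} (hns : NotVS ψ) {γ : Γ} {l : Fˣ} (hγ : ψ γ = dg l)
    (hl : (l : F) ≠ 1) : ∃ σ, Full (ψ σ) := by
  classical
  by_contra hno
  push Not at hno
  have hγ1 : ∀ x y : Γ, ∀ i j, rep (ψ (x * y)) i j = 0 →
      rep (ψ (x * γ * y)) i j = 0 →
      rep (ψ x) i 0 * rep (ψ y) 0 j = 0 := by
    intro x y i j h1 h2
    obtain ⟨s, hs, e1⟩ := rep_mul (ψ x) (ψ y)
    obtain ⟨s', hs', e2⟩ := rep_mul (ψ x * ψ γ) (ψ y)
    obtain ⟨s'', hs'', e3⟩ := rep_mul (ψ x) (ψ γ)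
    obtain ⟨t, ht, e4⟩ := rep_dg l
    rw [map_mul, e1] at h1
    rw [map_mul, map_mul, e2, e3, hγ, e4] at h2
    simp [Matrix.mul_apply, Fin.sum_univ_two, hs, hs', hs'', ht] at h1 h2
    have h3 : rep (ψ x) i 0 * rep (ψ y) 0 j * (t * ((l : F) - 1)) = 0 := by
      linear_combination h2 - t * h1
    exact (mul_eq_zero.1 h3).resolve_right (mul_ne_zero ht (sub_ne_zero.2 hl))
  -- no product of two elements has a zero entry at two twists
  have mixed : ∀ x y : Γ, ¬ (rep (ψ x) 0 0 ≠ 0 ∧ rep (ψ x) 1 0 = 0 ∧ rep (ψ x) 0 1 ≠ 0 ∧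
      rep (ψ y) 0 0 ≠ 0 ∧ rep (ψ y) 0 1 = 0 ∧ rep (ψ y) 1 0 ≠ 0) := by
    rintro x y ⟨a1, a2, a3, b1, b2, b3⟩
    have hx := entries (ψ x)
    have hy := entries (ψ y)
    rw [a2, mul_zero, sub_zero] at hx
    rw [b2, zero_mul, sub_zero] at hy
    obtain ⟨-, a4⟩ := mul_ne_zero_iff.1 hx
    obtain ⟨-, b4⟩ := mul_ne_zero_iff.1 hy
    obtain ⟨i, j, h⟩ : ∃ i j, rep (ψ (x * y)) i j = 0 ∧ rep (ψ (x * γ * y)) i j = 0 := by
      obtain ⟨s, hs, e1⟩ := rep_mul (ψ x) (ψ y)
      obtain ⟨s', hs', e2⟩ := rep_mul (ψ x * ψ γ) (ψ y)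
      obtain ⟨s'', hs'', e3⟩ := rep_mul (ψ x) (ψ γ)
      obtain ⟨t, ht, e4⟩ := rep_dg l
      rw [hγ] at e2 e3
      have z1 := hno (x * y)
      have z2 := hno (x * γ * y)
      simp only [Full, not_forall, not_not] at z1 z2
      obtain ⟨i, j, z1⟩ := z1
      obtain ⟨i', j', z2⟩ := z2
      refine ⟨0, 0, ?_, ?_⟩
      · fin_cases i <;> fin_cases j <;> first
          | exact z1
          | (simp [map_mul, e1, Matrix.mul_apply, Fin.sum_univ_two, hs, a2, b2, a3, a4, b3, b4] at z1)
      · fin_cases i' <;> fin_cases j' <;> first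
          | exact z2
          | (simp [map_mul, e2, e3, hγ, e4, Matrix.mul_apply, Fin.sum_univ_two, hs', hs'', ht, a2,
              b2, a3, a4, b3, b4] at z2)
    rcases Fin.exists_fin_two.1 ⟨i, rfl⟩ with rfl | rfl <;>
      rcases Fin.exists_fin_two.1 ⟨j, rfl⟩ with rfl | rfl
    · exact mul_ne_zero a1 b1 (hγ1 x y 0 0 h.1 h.2)
    all_goals
      obtain ⟨s, hs, e1⟩ := rep_mul (ψ x) (ψ y)
      have h1 := h.1
      simp [map_mul, e1, Matrix.mul_apply, Fin.sum_univ_two, hs, a2, b2, a3, a4, b3, b4] at h1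
  have lopsided : ∀ x : Γ, (rep (ψ x) 0 0 = 0 ↔ rep (ψ x) 1 1 = 0) := by
    intro x
    obtain ⟨s, hs, e1⟩ := rep_mul (ψ x) (ψ x)
    obtain ⟨s', hs', e2⟩ := rep_mul (ψ x * ψ γ) (ψ x)
    obtain ⟨s'', hs'', e3⟩ := rep_mul (ψ x) (ψ γ)
    obtain ⟨t, ht, e4⟩ := rep_dg l
    rw [hγ] at e2 e3
    have hd := entries (ψ x)
    have z1 := hno (x * x)
    have z2 := hno (x * γ * x)
    simp only [Full, not_forall, not_not] at z1 z2
    obtain ⟨i, j, z1⟩ := z1
    obtain ⟨i', j', z2⟩ := z2
    constructor <;> intro h0 <;> by_contra h1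
    · rw [h0, zero_mul, zero_sub, neg_ne_zero] at hd
      obtain ⟨h2, h3⟩ := mul_ne_zero_iff.1 hd
      have k1 : rep (ψ (x * x)) 1 1 = 0 := by
        fin_cases i <;> fin_cases j <;> first
          | exact z1
          | (simp [map_mul, e1, Matrix.mul_apply, Fin.sum_univ_two, hs, h0, h1, h2, h3] at z1)
      have k2 : rep (ψ (x * γ * x)) 1 1 = 0 := by
        fin_cases i' <;> fin_cases j' <;> first
          | exact z2
          | (simp [map_mul, e2, e3, hγ, e4, Matrix.mul_apply, Fin.sum_univ_two, hs', hs'', ht,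
              h0, h1, h2, h3] at z2)
      exact mul_ne_zero h3 h2 (hγ1 x x 1 1 k1 k2)
    · rw [h0, mul_zero, zero_sub, neg_ne_zero] at hd
      obtain ⟨h2, h3⟩ := mul_ne_zero_iff.1 hd
      have k1 : rep (ψ (x * x)) 0 0 = 0 := by
        fin_cases i <;> fin_cases j <;> first
          | exact z1
          | (simp [map_mul, e1, Matrix.mul_apply, Fin.sum_univ_two, hs, h0, h1, h2, h3] at z1)
      have k2 : rep (ψ (x * γ * x)) 0 0 = 0 := by
        fin_cases i' <;> fin_cases j' <;> first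
          | exact z2
          | (simp [map_mul, e2, e3, hγ, e4, Matrix.mul_apply, Fin.sum_univ_two, hs', hs'', ht,
              h0, h1, h2, h3] at z2)
      exact mul_ne_zero h1 h1 (hγ1 x x 0 0 k1 k2)
  have trichotomy : ∀ x : Γ, Upper (ψ x) ∨ Lower (ψ x) ∨ Swap (ψ x) := by
    intro x
    obtain ⟨i, j, h⟩ : ∃ i j, rep (ψ x) i j = 0 := by
      have := hno x
      simp only [Full, not_forall, not_not] at this
      exact this
    fin_cases i <;> fin_cases j
    · exact Or.inr (Or.inr ⟨h, (lopsided x).1 h⟩)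
    · exact Or.inr (Or.inl h)
    · exact Or.inl h
    · exact Or.inr (Or.inr ⟨(lopsided x).2 h, h⟩)
  -- a strict triangular element excludes a swap and the other triangle
  by_cases hstrict : ∃ x, (Upper (ψ x) ∧ ¬ Lower (ψ x)) ∨ (Lower (ψ x) ∧ ¬ Upper (ψ x))
  · obtain ⟨x, hx⟩ := hstrict
    have nz : rep (ψ x) 0 0 ≠ 0 ∧ rep (ψ x) 1 1 ≠ 0 := by
      have hd := entries (ψ x)
      rcases hx with ⟨h, -⟩ | ⟨h, -⟩ <;>
      · simp only [Upper, Lower] at h
        rw [h] at hd
        simp only [mul_zero, zero_mul, sub_zero] at hd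
        exact mul_ne_zero_iff.1 hd
    have noswap : ∀ y, ¬ Swap (ψ y) := by
      intro y ⟨s0, s1⟩
      obtain ⟨s, hs, e⟩ := rep_mul (ψ y) (ψ x)
      have hd := entries (ψ y)
      rw [s0, zero_mul, zero_sub, neg_ne_zero] at hd
      obtain ⟨h2, h3⟩ := mul_ne_zero_iff.1 hd
      have h := lopsided (y * x)
      rw [map_mul, e] at h
      rcases hx with ⟨hu, hn⟩ | ⟨hu, hn⟩ <;> simp only [Upper, Lower] at hu hn <;>
        simp [Matrix.mul_apply, Fin.sum_univ_two, hs, s0, s1, hu, hn, h2, h3, nz.1, nz.2] at h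
    have tri : (∀ z, Upper (ψ z)) ∨ ∀ z, Lower (ψ z) := by
      rcases hx with ⟨hu, hn⟩ | ⟨hu, hn⟩
      · refine Or.inl fun z => ?_
        rcases trichotomy z with h | h | h
        · exact h
        · by_contra hz
          have hd := entries (ψ z)
          simp only [Lower] at h
          rw [h, zero_mul, sub_zero] at hd
          exact mixed x z ⟨nz.1, hu, hn, (mul_ne_zero_iff.1 hd).1, h, hz⟩
        · exact absurd h (noswap z)
      · refine Or.inr fun z => ?_
        rcases trichotomy z with h | h | h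
        · by_contra hz
          have hd := entries (ψ z)
          simp only [Upper] at h
          rw [h, mul_zero, sub_zero] at hd
          exact mixed z x ⟨(mul_ne_zero_iff.1 hd).1, h, hz, nz.1, hu, hn⟩
        · exact h
        · exact absurd h (noswap z)
    refine hns ⊤ inferInstance (solvable_of_tri _ ?_)
    rcases tri with h | h
    · exact Or.inl fun z ⟨g, _, hg⟩ => hg ▸ h g
    · exact Or.inr fun z ⟨g, _, hg⟩ => hg ▸ h g
  · push Not at hstrict
    have diag : ∀ x, (Upper (ψ x) ∧ Lower (ψ x)) ∨ Swap (ψ x) := fun x => by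
      rcases trichotomy x with h | h | h
      · exact Or.inl ⟨h, (hstrict x).1 h⟩
      · exact Or.inl ⟨(hstrict x).2 h, h⟩
      · exact Or.inr h
    have excl : ∀ x, Upper (ψ x) → ¬ Swap (ψ x) := fun x hu ⟨h0, _⟩ => by
      have hd := entries (ψ x)
      simp only [Upper] at hu
      simp [h0, hu] at hd
    have parity : ∀ x y, Upper (ψ (x * y)) ↔ (Upper (ψ x) ↔ Upper (ψ y)) := by
      intro x y
      obtain ⟨s, hs, e⟩ := rep_mul (ψ x) (ψ y)
      have hx := entries (ψ x)
      have hy := entries (ψ y)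
      rcases diag x with ⟨a, b⟩ | ⟨a, b⟩ <;> rcases diag y with ⟨c, d⟩ | ⟨c, d⟩ <;>
      · simp only [Upper, Lower, map_mul, e] at a b c d ⊢
        simp [Matrix.mul_apply, Fin.sum_univ_two, hs, a, b, c, d] at hx hy ⊢
        all_goals simp [hx, hy]
    let f : Γ →* Multiplicative (ZMod 2) :=
      { toFun := fun x => if Upper (ψ x) then 1 else Multiplicative.ofAdd 1
        map_one' := by
          obtain ⟨s, hs, e⟩ := rep_one (F := F)
          simp [Upper, e]
        map_mul' := fun x y => by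
          have := parity x y
          by_cases a : Upper (ψ x) <;> by_cases b : Upper (ψ y) <;> simp [a, b] at this <;>
            simp [a, b, this] <;> rfl }
    refine hns f.ker inferInstance (solvable_of_tri _ (Or.inl fun z ⟨g, hg, he⟩ => ?_))
    by_contra hz
    rw [← he] at hz
    have : f g = 1 := hg
    simp [f, hz] at this

/-! ### The ends -/

variable {v : AbsoluteValue F ℝ} {c : ℝ}

theorem ell_dg (hc : Quasi v c) (l : Fˣ) : ell v (dg l) = |Real.log (v l)| := by
  rw [dg, ell_mk, ell0]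
  have hv := v.pos l.ne_zero
  have hm : mn v !![(l : F), 0; 0, 1] = max (v l) 1 := by simp [mn, v.nonneg]
  show Real.log (mn v !![(l : F), 0; 0, 1] ^ 2 / v (!![(l : F), 0; 0, 1] : Matrix _ _ F).det) = _
  rw [hm, det_fin_two_of, mul_one, mul_zero, sub_zero]
  rcases le_total (v l) 1 with h | h
  · rw [max_eq_right h, one_pow, one_div, Real.log_inv, abs_of_nonpos (Real.log_nonpos hv.le h)]
  · rw [max_eq_left h, pow_two, mul_div_assoc, div_self hv.ne', mul_one,
      abs_of_nonneg (Real.log_nonneg h)]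

/-- Between two diagonal classes a class without a zero entry costs a bounded amount. -/
theorem ell_wedge {x : PG F} (hx : Full x) : ∃ C : ℝ, ∀ p q : Fˣ,
    |Real.log (v p)| + |Real.log (v q)| - C ≤ ell v (dg p * x * dg q) := by
  set μ := min (min (v (rep x 0 0)) (v (rep x 0 1))) (min (v (rep x 1 0)) (v (rep x 1 1))) with hμ
  have hμ0 : 0 < μ := lt_min (lt_min (v.pos (hx 0 0)) (v.pos (hx 0 1)))
    (lt_min (v.pos (hx 1 0)) (v.pos (hx 1 1)))
  have hd := v.pos (rep_det x)
  refine ⟨Real.log (v (rep x).det) - 2 * Real.log μ, fun p q => ?_⟩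
  have e : dg p * x * dg q = QuotientGroup.mk
      (GeneralLinearGroup.mkOfDetNeZero !![(p : F), 0; 0, 1] (by simp [det_fin_two]) * x.out *
        GeneralLinearGroup.mkOfDetNeZero !![(q : F), 0; 0, 1] (by simp [det_fin_two])) := by
    rw [QuotientGroup.mk_mul, QuotientGroup.mk_mul, QuotientGroup.out_eq']; rfl
  rw [e, ell_mk, ell0, Units.val_mul, Units.val_mul]
  set W : Matrix (Fin 2) (Fin 2) F := !![(p : F), 0; 0, 1] * rep x * !![(q : F), 0; 0, 1] with hW
  change _ ≤ Real.log (mn v W ^ 2 / v W.det)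
  set P := max (v p) 1
  set Q := max (v q) 1
  have hP : 0 < P := lt_of_lt_of_le one_pos (le_max_right _ _)
  have hQ : 0 < Q := lt_of_lt_of_le one_pos (le_max_right _ _)
  have hWe : ∀ i j, W i j = (if i = 0 then (p : F) else 1) * rep x i j * (if j = 0 then (q : F) else 1) := by
    intro i j
    fin_cases i <;> fin_cases j <;>
      simp [hW, Matrix.vecMul, dotProduct, Matrix.mul_apply, Fin.sum_univ_two] <;> ring
  have hlow : μ * (P * Q) ≤ mn v W := by
    have key : ∀ i j : Fin 2, μ * (v (if i = 0 then (p : F) else 1) *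
        v (if j = 0 then (q : F) else 1)) ≤ mn v W := fun i j => by
      refine le_trans ?_ (le_mn v W i j)
      rw [hWe, map_mul, map_mul, mul_comm μ, mul_right_comm]
      refine mul_le_mul_of_nonneg_right (mul_le_mul_of_nonneg_left ?_ (v.nonneg _)) (v.nonneg _)
      fin_cases i <;> fin_cases j <;> simp [hμ]
    rcases max_choice (v p) 1 with hp | hp <;> rcases max_choice (v q) 1 with hq | hq
    · simpa [P, Q, hp, hq] using key 0 0
    · simpa [P, Q, hp, hq] using key 0 1
    · simpa [P, Q, hp, hq] using key 1 0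
    · simpa [P, Q, hp, hq] using key 1 1
  have hWd : v W.det = v p * v (rep x).det * v q := by
    rw [hW, det_mul, det_mul, map_mul, map_mul, det_fin_two_of, det_fin_two_of]
    simp
  have hp0 := v.pos p.ne_zero
  have hq0 := v.pos q.ne_zero
  have key2 : ∀ t : ℝ, 0 < t → |Real.log t| = 2 * Real.log (max t 1) - Real.log t := fun t ht => by
    rcases le_total t 1 with h | h
    · rw [max_eq_right h, Real.log_one, abs_of_nonpos (Real.log_nonpos ht.le h)]; ring
    · rw [max_eq_left h, abs_of_nonneg (Real.log_nonneg h)]; ring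
  rw [hWd, Real.log_div (pow_ne_zero _ (by nlinarith [mul_pos hμ0 (mul_pos hP hQ)])) (by positivity),
    Real.log_pow, Real.log_mul (by positivity) hq0.ne', Real.log_mul hp0.ne' hd.ne',
    key2 _ hp0, key2 _ hq0]
  have h := Real.log_le_log (by positivity) hlow
  rw [Real.log_mul hμ0.ne' (by positivity), Real.log_mul hP.ne' hQ.ne'] at h
  push_cast
  linarith

/-- Two elements escape linearly in four different directions. -/
theorem exists_ends (hc : Quasi v c) {ψ : Γ →* PG F} (hns : NotVS ψ) (hh : HasHyp v ψ) :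
    ∃ (g h : Γ) (s K : ℝ), 0 < s ∧ 0 ≤ K ∧
      (∀ n : ℕ, s * n - K ≤ ell v (ψ (g ^ n)) ∧ s * n - K ≤ ell v (ψ (h ^ n))) ∧
      ∀ a ∈ [(g, h), (g, h⁻¹), (g⁻¹, h), (g⁻¹, h⁻¹)], ∀ n k : ℕ,
        ell v (ψ (a.1 ^ n)) + ell v (ψ (a.2 ^ k)) ≤
          ell v ((ψ (a.1 ^ n))⁻¹ * ψ (a.2 ^ k)) + K := by
  obtain ⟨γ, l, hγ, hl⟩ := hh
  have hne : (l : F) ≠ 1 := fun h => by rw [h, map_one] at hl; exact lt_irrefl _ hl
  obtain ⟨σ, hσ⟩ := exists_full hns hγ hne
  set x := ψ σ
  obtain ⟨C, hC⟩ := ell_wedge (v := v) hσ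
  set L := Real.log c
  have hL : 0 ≤ L := log_c_nonneg hc
  set s := Real.log (v l)
  have hs : 0 < s := Real.log_pos hl
  have hex := ell_lower hc x
  have hpow : ∀ z : ℤ, ψ (γ ^ z) = dg (l ^ z) := fun z => by
    rw [map_zpow, hγ]; exact (map_zpow (dgHom (F := F)) l z).symm
  have hconj : ∀ z : ℤ, ψ ((σ * γ * σ⁻¹) ^ z) = x * dg (l ^ z) * x⁻¹ := fun z => by
    rw [conj_zpow, map_mul, map_mul, map_inv, hpow]
  have hsize : ∀ z : ℤ, ell v (dg (l ^ z)) = |(z : ℝ)| * s := fun z => by
    rw [ell_dg hc, Units.val_zpow_eq_zpow_val, map_zpow₀, Real.log_zpow, abs_mul, abs_of_pos hs]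
  have hhi : ∀ z : ℤ, ell v (x * dg (l ^ z) * x⁻¹) ≤ |(z : ℝ)| * s + (2 * ell v x + 4 * L) ∧
      |(z : ℝ)| * s - (2 * ell v x + 4 * L) ≤ ell v (x * dg (l ^ z) * x⁻¹) := fun z => by
    have h1 := ell_mul hc (x * dg (l ^ z)) x⁻¹
    have h2 := ell_mul hc x (dg (l ^ z))
    have h3 := ell_mul hc x⁻¹ (x * dg (l ^ z) * x⁻¹ * x)
    have h4 := ell_mul hc (x * dg (l ^ z) * x⁻¹) x
    rw [ell_inv] at h1 h3
    rw [show x⁻¹ * (x * dg (l ^ z) * x⁻¹ * x) = dg (l ^ z) by group] at h3
    rw [hsize] at h2 h3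
    constructor <;> linarith
  have hmix : ∀ y z : ℤ, ell v (ψ (γ ^ y)) + ell v (ψ ((σ * γ * σ⁻¹) ^ z)) ≤
      ell v ((ψ (γ ^ y))⁻¹ * ψ ((σ * γ * σ⁻¹) ^ z)) + (|C| + 3 * ell v x + 6 * L) := fun y z => by
    rw [hpow, hconj]
    have e : (dg (l ^ y))⁻¹ = dg (l ^ y)⁻¹ := (map_inv (dgHom (F := F)) _).symm
    have h1 := hC (l ^ y)⁻¹ (l ^ z)
    rw [← e] at h1
    have h2 := ell_mul hc ((dg (l ^ y))⁻¹ * (x * dg (l ^ z) * x⁻¹)) x
    rw [show (dg (l ^ y))⁻¹ * (x * dg (l ^ z) * x⁻¹) * x = (dg (l ^ y))⁻¹ * x * dg (l ^ z) by group]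
      at h2
    simp only [Units.val_inv_eq_inv_val, map_inv₀, Real.log_inv, abs_neg,
      Units.val_zpow_eq_zpow_val, map_zpow₀, Real.log_zpow, abs_mul,
      show |Real.log (v (l : F))| = s from abs_of_pos hs] at h1
    rw [hsize]
    linarith [(hhi z).1, le_abs_self C]
  refine ⟨γ, σ * γ * σ⁻¹, s, |C| + 3 * |ell v x| + 6 * L, hs, by positivity, fun n => ?_, ?_⟩
  · have h1 := hsize n
    have h2 := (hhi n).2
    rw [← hpow, zpow_natCast] at h1
    rw [← hconj, zpow_natCast] at h2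
    simp only [Int.cast_natCast, Nat.abs_cast] at h1 h2
    constructor <;> linarith [abs_nonneg C, le_abs_self (ell v x)]
  · intro a ha n k
    simp only [List.mem_cons, List.not_mem_nil, or_false] at ha
    have := le_abs_self (ell v x)
    rcases ha with rfl | rfl | rfl | rfl
    · have h := hmix n k; rw [zpow_natCast, zpow_natCast] at h; linarith
    · have h := hmix n (-k); rw [zpow_natCast, _root_.zpow_neg, zpow_natCast, ← inv_pow] at h; linarith
    · have h := hmix (-n) k; rw [_root_.zpow_neg, zpow_natCast, zpow_natCast, ← inv_pow] at h; linarith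
    · have h := hmix (-n) (-k)
      rw [_root_.zpow_neg, zpow_natCast, _root_.zpow_neg, zpow_natCast, ← inv_pow, ← inv_pow] at h
      linarith

end Vale.Agent.P165.GL2
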