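import Vale.Agent.P165.GL2.Norm
import Vale.Agent.P165.QT.Geo

/-!
# The tree of a discrete absolute value

Vertices are classes of elements at displacement zero from one another and edges are displacement one
unit. One pivot step lowers the displacement by a unit, and the four point condition with constant
zero gives the bottleneck property.
-/

namespace Vale.Agent.P165.GL2

open Matrix
open scoped MatrixGroups

variable {F : Type} [Field F] {v : AbsoluteValue F ℝ}

theorem quasi_disc (h : Disc v) : Quasi v 1 :=
  ⟨le_rfl, fun x y => (h.1 x y).trans (le_of_eq (one_mul _).symm)⟩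

section

variable (hD : Disc v)

/-- The step of the logarithm. -/
noncomputable def unit : ℝ := hD.2.choose

theorem unit_pos : 0 < unit hD := hD.2.choose_spec.1

theorem exists_int {x : F} (hx : x ≠ 0) : ∃ m : ℤ, Real.log (v x) = m * unit hD :=
  hD.2.choose_spec.2.1 x hx

theorem exists_pi : ∃ x : F, x ≠ 0 ∧ Real.log (v x) = -unit hD := hD.2.choose_spec.2.2

/-- The displacement in units. -/
noncomputable def step (x : PG F) : ℕ := ⌊ell v x / unit hD⌋₊

theorem ell_eq_step (x : PG F) : ell v x = step hD x * unit hD := by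
  have h0 := ell_lower (quasi_disc hD) x
  rw [Real.log_one, neg_zero] at h0
  obtain ⟨g, rfl⟩ := QuotientGroup.mk_surjective x
  have hu := unit_pos hD
  obtain ⟨i, j, hij⟩ := exists_max_entry v (g : Matrix (Fin 2) (Fin 2) F)
  have hne : (g : Matrix (Fin 2) (Fin 2) F) i j ≠ 0 := fun h =>
    (mn_pos v (det_ne g)).ne' (by rw [hij, h, map_zero])
  obtain ⟨m, hm⟩ := exists_int hD hne
  obtain ⟨k, hk⟩ := exists_int hD (det_ne g)
  have he : ell v (QuotientGroup.mk g) = ((2 * m - k : ℤ) : ℝ) * unit hD := by
    rw [ell_mk, ell0, hij,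
      Real.log_div (pow_ne_zero _ (v.pos hne).ne') (v.pos (det_ne g)).ne',
      Real.log_pow, hm, hk]
    push_cast
    ring
  rw [step, he, mul_div_cancel_right₀ _ hu.ne']
  have hnn : (0 : ℤ) ≤ 2 * m - k := by
    rw [he] at h0
    exact_mod_cast nonneg_of_mul_nonneg_left h0 hu
  obtain ⟨n, hn⟩ := Int.eq_ofNat_of_zero_le hnn
  rw [hn]
  simp

theorem step_one : step hD (1 : PG F) = 0 := by simp [step, ell_one]

theorem step_inv (x : PG F) : step hD x⁻¹ = step hD x := by simp [step, ell_inv]

theorem step_mul (x y : PG F) : step hD (x * y) ≤ step hD x + step hD y := by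
  have h := ell_mul (quasi_disc hD) x y
  rw [Real.log_one, mul_zero, add_zero, ell_eq_step hD, ell_eq_step hD x, ell_eq_step hD y,
    ← add_mul] at h
  exact_mod_cast le_of_mul_le_mul_right h (unit_pos hD)

theorem step_four (x y z : PG F) : step hD (x⁻¹ * z) + step hD y ≤
    max (step hD (x⁻¹ * y) + step hD z) (step hD x + step hD (y⁻¹ * z)) := by
  have h := ell_four (quasi_disc hD) x y z
  simp only [Real.log_one, mul_zero, add_zero, ell_eq_step hD, ← add_mul,
    ← max_mul_of_nonneg _ _ (unit_pos hD).le] at h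
  exact_mod_cast le_of_mul_le_mul_right h (unit_pos hD)

/-- Elements at displacement zero from one another give one vertex. -/
def vertSetoid : Setoid (PG F) where
  r x y := step hD (x⁻¹ * y) = 0
  iseqv := {
    refl := fun x => by rw [inv_mul_cancel, step_one]
    symm := fun {x y} h => by
      rw [← step_inv, _root_.mul_inv_rev, inv_inv]; exact h
    trans := fun {x y z} h h' => by
      have := step_mul hD (x⁻¹ * y) (y⁻¹ * z)
      rw [show x⁻¹ * y * (y⁻¹ * z) = x⁻¹ * z by group, h, h'] at this
      exact Nat.le_zero.1 this }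

/-- The vertices. -/
def Vert : Type := Quotient (vertSetoid hD)

/-- The vertex of an element. -/
def vert (x : PG F) : Vert hD := Quotient.mk (vertSetoid hD) x

/-- The number of steps between two vertices. -/
noncomputable def vd : Vert hD → Vert hD → ℕ :=
  Quotient.lift₂ (fun x y => step hD (x⁻¹ * y)) fun x y x' y' (hx : step hD (x⁻¹ * x') = 0)
    (hy : step hD (y⁻¹ * y') = 0) => by
    have h1 := step_mul hD (x⁻¹ * x') (x'⁻¹ * y')
    have h2 := step_mul hD (x⁻¹ * y') (y⁻¹ * y')⁻¹
    have h3 := step_mul hD (x⁻¹ * x')⁻¹ (x⁻¹ * y)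
    have h4 := step_mul hD (x'⁻¹ * y) (y⁻¹ * y')
    rw [step_inv] at h2 h3
    rw [show x⁻¹ * x' * (x'⁻¹ * y') = x⁻¹ * y' by group, hx] at h1
    rw [show x⁻¹ * y' * (y⁻¹ * y')⁻¹ = x⁻¹ * y by group, hy] at h2
    rw [show (x⁻¹ * x')⁻¹ * (x⁻¹ * y) = x'⁻¹ * y by group, hx] at h3
    rw [show x'⁻¹ * y * (y⁻¹ * y') = x'⁻¹ * y' by group, hy] at h4
    omega

theorem vd_vert (x y : PG F) : vd hD (vert hD x) (vert hD y) = step hD (x⁻¹ * y) := rfl

theorem vd_self (a : Vert hD) : vd hD a a = 0 := by
  induction a using Quotient.inductionOn with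
  | h x => show step hD (x⁻¹ * x) = 0; rw [inv_mul_cancel, step_one]

theorem vd_comm (a b : Vert hD) : vd hD a b = vd hD b a := by
  induction a using Quotient.inductionOn with
  | h x =>
    induction b using Quotient.inductionOn with
    | h y =>
      show step hD (x⁻¹ * y) = step hD (y⁻¹ * x)
      rw [← step_inv, _root_.mul_inv_rev, inv_inv]

theorem vd_eq_zero {a b : Vert hD} (h : vd hD a b = 0) : a = b := by
  induction a using Quotient.inductionOn with
  | h x =>
    induction b using Quotient.inductionOn with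
    | h y => exact Quotient.sound (s := vertSetoid hD) h

theorem vd_triangle (a b e : Vert hD) : vd hD a e ≤ vd hD a b + vd hD b e := by
  induction a using Quotient.inductionOn with
  | h x =>
    induction b using Quotient.inductionOn with
    | h y =>
      induction e using Quotient.inductionOn with
      | h z =>
        show step hD (x⁻¹ * z) ≤ step hD (x⁻¹ * y) + step hD (y⁻¹ * z)
        have := step_mul hD (x⁻¹ * y) (y⁻¹ * z)
        rwa [show x⁻¹ * y * (y⁻¹ * z) = x⁻¹ * z by group] at this

theorem vd_four (o a b e : Vert hD) : vd hD a e + vd hD o b ≤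
    max (vd hD a b + vd hD o e) (vd hD o a + vd hD b e) := by
  induction o using Quotient.inductionOn with
  | h w =>
    induction a using Quotient.inductionOn with
    | h x =>
      induction b using Quotient.inductionOn with
      | h y =>
        induction e using Quotient.inductionOn with
        | h z =>
          have := step_four hD (w⁻¹ * x) (w⁻¹ * y) (w⁻¹ * z)
          rw [show (w⁻¹ * x)⁻¹ * (w⁻¹ * z) = x⁻¹ * z by group,
            show (w⁻¹ * x)⁻¹ * (w⁻¹ * y) = x⁻¹ * y by group,
            show (w⁻¹ * y)⁻¹ * (w⁻¹ * z) = y⁻¹ * z by group] at this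
          exact this

/-- The graph: edges join vertices one step apart. -/
def tree : SimpleGraph (Vert hD) where
  Adj a b := vd hD a b = 1
  symm := ⟨fun a b h => by rwa [vd_comm]⟩
  loopless := ⟨fun a h => by rw [vd_self] at h; exact zero_ne_one h⟩

/-- One pivot step lowers the displacement. -/
theorem exists_pivot {x : PG F} (hx : 1 ≤ step hD x) :
    ∃ z : PG F, step hD z = 1 ∧ step hD (z⁻¹ * x) + 1 ≤ step hD x := by
  obtain ⟨g, rfl⟩ := QuotientGroup.mk_surjective x
  obtain ⟨p, hp0, hp⟩ := exists_pi hD
  have hu := unit_pos hD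
  set G := (g : Matrix (Fin 2) (Fin 2) F) with hG
  obtain ⟨i, j, hij⟩ := exists_max_entry v G
  have hM : 0 < mn v G := mn_pos v (det_ne g)
  have hne : G i j ≠ 0 := fun h => hM.ne' (by rw [hij, h, map_zero])
  have hpv : v p = Real.exp (-unit hD) := by rw [← hp, Real.exp_log (v.pos hp0)]
  have hp1 : v p ≤ 1 := by rw [hpv, Real.exp_le_one_iff]; linarith
  have hT := v.pos (det_ne g)
  have hbig : v G.det ≤ v p * mn v G ^ 2 := by
    have h1 : unit hD ≤ ell v (QuotientGroup.mk g) := by
      rw [ell_eq_step hD]
      exact le_mul_of_one_le_left hu.le (by exact_mod_cast hx)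
    rw [ell_mk, ell0, Real.log_div (by positivity) hT.ne'] at h1
    rw [← Real.log_le_log_iff hT (mul_pos (v.pos hp0) (pow_pos hM 2)),
      Real.log_mul (v.pos hp0).ne' (by positivity), hp]
    linarith
  have key : ∃ P : Matrix (Fin 2) (Fin 2) F, P.det = p ∧ mn v P = 1 ∧
      mn v (P * G) ≤ v p * mn v G := by
    have hratio : ∀ l, v (G l j / G i j) ≤ 1 := fun l => by
      rw [map_div₀, div_le_one (v.pos hne), ← hij]; exact le_mn v G l j
    have hrest : v G.det / v (G i j) ≤ v p * mn v G := by
      rw [← hij, div_le_iff₀ hM]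
      exact hbig.trans (le_of_eq (by ring))
    fin_cases i
    · refine ⟨!![p, 0; -(G 1 j / G 0 j), 1], by simp [det_fin_two], le_antisymm (mn_le v ?_) ?_, ?_⟩
      · exact Fin.forall_fin_two.2 ⟨Fin.forall_fin_two.2 ⟨by simpa using hp1, by simp⟩,
          Fin.forall_fin_two.2 ⟨by simpa [v.map_neg] using hratio 1, by simp⟩⟩
      · simpa using le_mn v !![p, 0; -(G 1 j / G 0 j), 1] 1 1
      refine mn_le v (Fin.forall_fin_two.2 ⟨fun l => ?_, fun l => ?_⟩)
      · simp only [Matrix.mul_apply, Fin.sum_univ_two]
        simpa using mul_le_mul_of_nonneg_left (le_mn v G 0 l) (v.nonneg p)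
      · simp only [Matrix.mul_apply, Fin.sum_univ_two]
        simp only [Fin.zero_eta, Fin.isValue] at hne hrest
        have e : -(G 1 j / G 0 j) * G 0 l + G 1 l = (G 0 j * G 1 l - G 1 j * G 0 l) / G 0 j := by
          field_simp; ring
        have hd : v (G 0 j * G 1 l - G 1 j * G 0 l) ≤ v G.det := by
          fin_cases j <;> fin_cases l <;>
            simp [det_fin_two, mul_comm, v.map_sub, v.nonneg]
        show v (-(G 1 j / G 0 j) * G 0 l + 1 * G 1 l) ≤ _
        rw [one_mul, e, map_div₀]
        exact (div_le_div_of_nonneg_right hd (v.nonneg _)).trans hrest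
    · refine ⟨!![1, -(G 0 j / G 1 j); 0, p], by simp [det_fin_two], le_antisymm (mn_le v ?_) ?_, ?_⟩
      · exact Fin.forall_fin_two.2 ⟨Fin.forall_fin_two.2
          ⟨by simp, by simpa [v.map_neg] using hratio 0⟩,
          Fin.forall_fin_two.2 ⟨by simp, by simpa using hp1⟩⟩
      · simpa using le_mn v !![1, -(G 0 j / G 1 j); 0, p] 0 0
      refine mn_le v (Fin.forall_fin_two.2 ⟨fun l => ?_, fun l => ?_⟩)
      · simp only [Matrix.mul_apply, Fin.sum_univ_two]
        simp only [Fin.mk_one, Fin.isValue] at hne hrest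
        have e : G 0 l + -(G 0 j / G 1 j) * G 1 l = (G 1 j * G 0 l - G 0 j * G 1 l) / G 1 j := by
          field_simp; ring
        have hd : v (G 1 j * G 0 l - G 0 j * G 1 l) ≤ v G.det := by
          fin_cases j <;> fin_cases l <;>
            simp [det_fin_two, mul_comm, v.map_sub, v.nonneg]
        show v (1 * G 0 l + -(G 0 j / G 1 j) * G 1 l) ≤ _
        rw [one_mul, e, map_div₀]
        exact (div_le_div_of_nonneg_right hd (v.nonneg _)).trans hrest
      · simp only [Matrix.mul_apply, Fin.sum_univ_two]
        simpa using mul_le_mul_of_nonneg_left (le_mn v G 1 l) (v.nonneg p)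
  obtain ⟨P, hPd, hPm, hPG⟩ := key
  set q : GL (Fin 2) F := GeneralLinearGroup.mkOfDetNeZero P (by rw [hPd]; exact hp0)
  have hzero : (q : Matrix (Fin 2) (Fin 2) F) = P := rfl
  have hq : ell v (QuotientGroup.mk q) = unit hD := by
    rw [ell_mk, ell0, hzero, hPm, hPd, one_pow, one_div, Real.log_inv, hp, neg_neg]
  have hPG0 : 0 < mn v (P * G) := mn_pos v (by
    rw [det_mul, hPd]; exact mul_ne_zero hp0 (det_ne g))
  refine ⟨(QuotientGroup.mk q)⁻¹, ?_, ?_⟩
  · rw [step_inv, step, hq, div_self hu.ne', Nat.floor_one]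
  · have h : ell v ((QuotientGroup.mk q) * QuotientGroup.mk g) + unit hD ≤
        ell v (QuotientGroup.mk g) := by
      rw [← QuotientGroup.mk_mul, ell_mk, ell_mk, ell0, ell0, Units.val_mul, hzero, det_mul, hPd,
        map_mul, Real.log_div (pow_ne_zero _ hPG0.ne')
          (mul_ne_zero (v.pos hp0).ne' hT.ne'),
        Real.log_div (by positivity) hT.ne', Real.log_mul (v.pos hp0).ne' hT.ne',
        Real.log_pow, Real.log_pow, hp]
      have hlog := Real.log_le_log hPG0 hPG
      rw [Real.log_mul (v.pos hp0).ne' hM.ne', hp] at hlog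
      push_cast
      linarith
    rw [inv_inv]
    rw [ell_eq_step hD, ell_eq_step hD (QuotientGroup.mk g), ← add_one_mul] at h
    exact_mod_cast le_of_mul_le_mul_right h hu

theorem exists_walk : ∀ (n : ℕ) (a b : Vert hD), vd hD a b ≤ n →
    ∃ w : (tree hD).Walk a b, w.length ≤ vd hD a b := by
  intro n
  induction n with
  | zero =>
    intro a b h
    obtain rfl := vd_eq_zero hD (Nat.le_zero.1 h)
    exact ⟨.nil, Nat.zero_le _⟩
  | succ n ih =>
    intro a b h
    induction a using Quotient.inductionOn with
    | h x =>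
      induction b using Quotient.inductionOn with
      | h y =>
        rcases Nat.eq_zero_or_pos (step hD (x⁻¹ * y)) with h0 | h0
        · exact ih _ _ (le_of_eq_of_le (show vd hD _ _ = 0 from h0) (Nat.zero_le n))
        obtain ⟨z, hz1, hz2⟩ := exists_pivot hD h0
        have e : (x * z)⁻¹ * y = z⁻¹ * (x⁻¹ * y) := by group
        have hadj : (tree hD).Adj (vert hD x) (vert hD (x * z)) := by
          show step hD (x⁻¹ * (x * z)) = 1
          rw [inv_mul_cancel_left]; exact hz1
        have h' : step hD (x⁻¹ * y) ≤ n + 1 := h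
        obtain ⟨w, hw⟩ := ih (vert hD (x * z)) (vert hD y) (by rw [vd_vert, e]; omega)
        refine ⟨.cons hadj w, ?_⟩
        show w.length + 1 ≤ step hD (x⁻¹ * y)
        rw [vd_vert, e] at hw
        omega

theorem tree_connected : (tree hD).Connected :=
  haveI : Nonempty (Vert hD) := ⟨vert hD 1⟩
  ⟨fun a b => ⟨(exists_walk hD _ a b le_rfl).choose⟩⟩

theorem vd_le_walk {a b : Vert hD} (w : (tree hD).Walk a b) : vd hD a b ≤ w.length := by
  induction w with
  | nil => rw [vd_self]; exact Nat.zero_le _
  | @cons a e b hadj w ih =>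
    have h1 : vd hD a e = 1 := hadj
    have := vd_triangle hD a e b
    rw [SimpleGraph.Walk.length_cons]
    omega

theorem tree_dist (a b : Vert hD) : (tree hD).dist a b = vd hD a b := by
  obtain ⟨w, hw⟩ := exists_walk hD _ a b le_rfl
  obtain ⟨w', hw'⟩ := (tree_connected hD).exists_walk_length_eq_dist a b
  have h1 := SimpleGraph.dist_le w
  have h2 := vd_le_walk hD w'
  omega

theorem tree_bottleneck : QT.Bottleneck (tree hD) 0 := by
  intro p q w m hm
  by_contra hne
  push Not at hne
  have key : ∀ {a b : Vert hD} (w : (tree hD).Walk a b), (∀ x ∈ w.support, x ≠ m) →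
      vd hD a b < vd hD a m + vd hD m b := by
    intro a b w
    induction w with
    | @nil a =>
      intro h
      have hpos : vd hD a m ≠ 0 := fun h0 =>
        h a (by simp) (vd_eq_zero hD h0)
      rw [vd_self, vd_comm hD m a]
      omega
    | @cons a e b hadj w ih =>
      intro h
      have h1 := ih fun x hx => h x (by simp [hx])
      have h2 : vd hD a e = 1 := hadj
      have ha : vd hD a m ≠ 0 := fun h0 => h a (by simp) (vd_eq_zero hD h0)
      have he : vd hD e m ≠ 0 := fun h0 => h e (by simp) (vd_eq_zero hD h0)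
      have h4 := vd_four hD m a e b
      rw [vd_comm hD m a, vd_comm hD m e] at h4
      rcases max_choice (vd hD a e + vd hD m b) (vd hD a m + vd hD e b) with h5 | h5 <;>
        rw [h5] at h4 <;> omega
  have := key w fun x hx hxm => by
    have := hne x hx
    rw [hxm, SimpleGraph.dist_self] at this
    omega
  rw [tree_dist, tree_dist, tree_dist] at hm
  omega

/-- Left translation of the vertices. -/
def vmul (g : PG F) : Vert hD → Vert hD :=
  Quotient.map (fun x => g * x) fun x y (h : step hD (x⁻¹ * y) = 0) => by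
    show step hD ((g * x)⁻¹ * (g * y)) = 0
    rwa [show (g * x)⁻¹ * (g * y) = x⁻¹ * y by group]

theorem vmul_one (a : Vert hD) : vmul hD 1 a = a := by
  induction a using Quotient.inductionOn with
  | h x => exact congrArg (vert hD) (one_mul x)

theorem vmul_mul (g h : PG F) (a : Vert hD) : vmul hD (g * h) a = vmul hD g (vmul hD h a) := by
  induction a using Quotient.inductionOn with
  | h x => exact congrArg (vert hD) (mul_assoc g h x)

theorem vd_vmul (g : PG F) (a b : Vert hD) : vd hD (vmul hD g a) (vmul hD g b) = vd hD a b := by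
  induction a using Quotient.inductionOn with
  | h x =>
    induction b using Quotient.inductionOn with
    | h y =>
      show step hD ((g * x)⁻¹ * (g * y)) = step hD (x⁻¹ * y)
      rw [show (g * x)⁻¹ * (g * y) = x⁻¹ * y by group]

/-- Left translation as an automorphism of the tree. -/
def vperm (g : PG F) : tree hD ≃g tree hD where
  toFun := vmul hD g
  invFun := vmul hD g⁻¹
  left_inv a := by rw [← vmul_mul, inv_mul_cancel, vmul_one]
  right_inv a := by rw [← vmul_mul, mul_inv_cancel, vmul_one]
  map_rel_iff' {a b} := by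
    show vd hD (vmul hD g a) (vmul hD g b) = 1 ↔ vd hD a b = 1
    rw [vd_vmul]

/-- The action through a homomorphism. -/
def treeAct {Γ : Type} [Group Γ] (ψ : Γ →* PG F) : Γ →* (tree hD ≃g tree hD) where
  toFun γ := vperm hD (ψ γ)
  map_one' := by
    ext a
    show vmul hD (ψ 1) a = a
    rw [map_one, vmul_one]
  map_mul' γ δ := by
    ext a
    show vmul hD (ψ (γ * δ)) a = vmul hD (ψ γ) (vmul hD (ψ δ) a)
    rw [map_mul, vmul_mul]

end

end Vale.Agent.P165.GL2
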