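import Vale.Agent.P165.GL2.Plane
import Vale.Agent.P165.GL2.Tree
import Vale.Agent.P165.GL2.Ends
import Vale.Agent.P165.HY.Main
import Vale.Agent.P165.QT.Main

/-!
# Nonuniqueness for groups with a linear image of degree two that is not virtually solvable
-/

namespace Vale.Agent.P165.GL2

open scoped MatrixGroups

variable {Γ : Type} [Group Γ]

/-- Powers turn linear escape into escape at any given speed. -/
theorem exists_speed {F : Type} [Field F] {v : AbsoluteValue F ℝ} {c : ℝ} (hc : Quasi v c)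
    {ψ : Γ →* PG F} (hns : NotVS ψ) (hh : HasHyp v ψ) {U : ℝ} (hU : 0 < U) :
    ∃ (g h : Γ) (K : ℝ), 0 ≤ K ∧
      (∀ n : ℕ, 1 ≤ n → U * n ≤ ell v (ψ (g ^ n)) ∧ U * n ≤ ell v (ψ (h ^ n))) ∧
      ∀ a ∈ [(g, h), (g, h⁻¹), (g⁻¹, h), (g⁻¹, h⁻¹)], ∀ n k : ℕ,
        ell v (ψ (a.1 ^ n)) + ell v (ψ (a.2 ^ k)) ≤
          ell v ((ψ (a.1 ^ n))⁻¹ * ψ (a.2 ^ k)) + K := by
  obtain ⟨g, h, s, K, hs, hK, hspeed, hdiv⟩ := exists_ends hc hns hh
  obtain ⟨m, hm⟩ := exists_nat_ge ((K + U) / s)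
  rw [div_le_iff₀ hs] at hm
  have key : ∀ n : ℕ, 1 ≤ n → U * n ≤ s * (m * n : ℕ) - K := fun n hn => by
    have h1 : (1 : ℝ) ≤ n := by exact_mod_cast hn
    push_cast
    nlinarith
  refine ⟨g ^ m, h ^ m, K, hK, fun n hn => ?_, fun a ha n k => ?_⟩
  · rw [← pow_mul, ← pow_mul]
    exact ⟨(key n hn).trans (hspeed _).1, (key n hn).trans (hspeed _).2⟩
  · simp only [List.mem_cons, List.not_mem_nil, or_false] at ha
    rcases ha with rfl | rfl | rfl | rfl <;>
      simp only [← inv_pow, ← pow_mul] <;>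
      exact hdiv (_, _) (by simp) (m * n) (m * k)

/-- A hyperbolic element over the complex numbers. -/
theorem nonuniquePhase_complex {ψ : Γ →* PG ℂ} (hns : NotVS ψ) (hh : HasHyp cabs ψ) :
    SG.NonuniquePhase Γ := by
  let _inst := pgMetric quasi_complex
  have hd : ∀ a b : PG ℂ, dist a b = pd cabs 2 a b / 4 := fun _ _ => rfl
  obtain ⟨g, h, K, hK, hspeed, hdiv⟩ := exists_speed quasi_complex hns hh (U := 4) four_pos
  set act : Γ →* Equiv.Perm (PG ℂ) := (MulAction.toPermHom (PG ℂ) (PG ℂ)).comp ψ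
  have hact : ∀ γ x, act γ x = ψ γ * x := fun _ _ => rfl
  refine HY.nonuniquePhase_of_fourEnds (mul_nonneg (by norm_num) (Real.log_nonneg one_le_two))
    (pg_hyp quasi_complex) packing_complex act (fun γ x y => ?_) 1
    ⟨g, h, (K + 4 * Real.log 2) / 8, fun n => ?_, fun a ha n k => ?_⟩
  · rw [hd, hd, hact, hact, pg_isom quasi_complex]
  · rcases Nat.eq_zero_or_pos n with rfl | hn
    · simp only [Nat.cast_zero]; exact ⟨dist_nonneg, dist_nonneg⟩
    obtain ⟨h1, h2⟩ := hspeed n hn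
    have b : ∀ x : PG ℂ, ell cabs x ≤ pd cabs 2 1 (x * 1) := fun x => by
      have := (pd_bounds quasi_complex (v := cabs) 1 (x * 1)).1
      rwa [inv_one, one_mul, mul_one] at *
    rw [hd, hd, hact, hact]
    constructor <;> linarith [b (ψ (g ^ n)), b (ψ (h ^ n))]
  · have := hdiv a ha n k
    rw [HY.gp, hd, hd, hd, hact, hact]
    have b1 := (pd_bounds quasi_complex (v := cabs) 1 (ψ (a.1 ^ n) * 1)).2
    have b2 := (pd_bounds quasi_complex (v := cabs) 1 (ψ (a.2 ^ k) * 1)).2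
    have b3 := (pd_bounds quasi_complex (v := cabs) (ψ (a.1 ^ n) * 1) (ψ (a.2 ^ k) * 1)).1
    simp only [inv_one, one_mul, mul_one] at b1 b2 b3 ⊢
    linarith

/-- A hyperbolic element at a discrete absolute value. -/
theorem nonuniquePhase_disc {F : Type} [Field F] {v : AbsoluteValue F ℝ} (hD : Disc v)
    {ψ : Γ →* PG F} (hns : NotVS ψ) (hh : HasHyp v ψ) : SG.NonuniquePhase Γ := by
  have hu := unit_pos hD
  obtain ⟨g, h, K, hK, hspeed, hdiv⟩ := exists_speed (quasi_disc hD) hns hh hu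
  have hd : ∀ γ δ : Γ, (tree hD).dist (treeAct hD ψ γ (vert hD 1)) (treeAct hD ψ δ (vert hD 1)) =
      step hD ((ψ γ)⁻¹ * ψ δ) := fun γ δ => by
    rw [tree_dist]
    show step hD ((ψ γ * 1)⁻¹ * (ψ δ * 1)) = _
    rw [mul_one, mul_one]
  have hd1 : ∀ γ : Γ, (tree hD).dist (vert hD 1) (treeAct hD ψ γ (vert hD 1)) = step hD (ψ γ) :=
    fun γ => by
    rw [tree_dist]
    show step hD (1⁻¹ * (ψ γ * 1)) = _
    rw [inv_one, one_mul, mul_one]
  refine QT.nonuniquePhase_of_fourEnds (tree_connected hD) (tree_bottleneck hD) (treeAct hD ψ)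
    (vert hD 1) ⟨g, h, ⌈K / unit hD⌉₊, fun n => ?_, fun a ha n k => ?_⟩
  · rw [hd1, hd1]
    rcases Nat.eq_zero_or_pos n with rfl | hn
    · exact ⟨Nat.zero_le _, Nat.zero_le _⟩
    obtain ⟨h1, h2⟩ := hspeed n hn
    rw [ell_eq_step hD, mul_comm] at h1 h2
    exact ⟨by exact_mod_cast le_of_mul_le_mul_right h1 hu,
      by exact_mod_cast le_of_mul_le_mul_right h2 hu⟩
  · show (tree hD).dist _ _ + (tree hD).dist _ _ ≤ _
    rw [hd1, hd1, hd]
    have h1 := hdiv a ha n k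
    rw [ell_eq_step hD, ell_eq_step hD (ψ (a.2 ^ k)),
      ell_eq_step hD ((ψ (a.1 ^ n))⁻¹ * ψ (a.2 ^ k))] at h1
    have h2 := Nat.le_ceil (K / unit hD)
    rw [div_le_iff₀ hu] at h2
    have h3 : ((step hD (ψ (a.1 ^ n)) : ℝ) + step hD (ψ (a.2 ^ k))) * unit hD ≤
        ((step hD ((ψ (a.1 ^ n))⁻¹ * ψ (a.2 ^ k)) : ℝ) + ⌈K / unit hD⌉₊) * unit hD := by
      rw [add_mul, add_mul]; linarith
    exact_mod_cast le_of_mul_le_mul_right h3 hu

/-- With the places, every finitely generated group with an image in `GL(2, K)` that is not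
virtually solvable has a nonuniqueness phase. -/
theorem nonuniquePhase_of_placeOK (hp : PlaceOK) {K : Type} [Field K] (hfg : Group.FG Γ)
    (φ : Γ →* GL (Fin 2) K) (h : NotVS φ) : SG.NonuniquePhase Γ := by
  rcases hp Γ K hfg φ h with ⟨ψ, h1, h2⟩ | ⟨E, hE, v, ψ, hD, h1, h2⟩
  · exact nonuniquePhase_complex h1 h2
  · exact nonuniquePhase_disc hD h1 h2

end Vale.Agent.P165.GL2
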