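import Vale.Agent.P165.GL2.Defs
import Vale.Agent.P165.HY.Space

/-!
# The metric of the projective group at an absolute value

`mn` is the largest entry and `ell` the logarithm of its square over the determinant. One identity
for two by two matrices gives the four point condition.
-/

namespace Vale.Agent.P165.GL2

open Matrix
open scoped MatrixGroups

variable {F : Type} [Field F] (v : AbsoluteValue F ℝ)

/-- The absolute value of a sum is at most `c` times the larger one. -/
def Quasi (c : ℝ) : Prop :=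
  1 ≤ c ∧ ∀ x y, v (x + y) ≤ c * max (v x) (v y)

/-- The largest entry. -/
noncomputable def mn (A : Matrix (Fin 2) (Fin 2) F) : ℝ :=
  max (max (v (A 0 0)) (v (A 0 1))) (max (v (A 1 0)) (v (A 1 1)))

theorem le_mn (A : Matrix (Fin 2) (Fin 2) F) (i j : Fin 2) : v (A i j) ≤ mn v A := by
  fin_cases i <;> fin_cases j <;> simp [mn]

theorem mn_le {A : Matrix (Fin 2) (Fin 2) F} {b : ℝ} (h : ∀ i j, v (A i j) ≤ b) : mn v A ≤ b :=
  max_le (max_le (h 0 0) (h 0 1)) (max_le (h 1 0) (h 1 1))

theorem exists_max_entry (A : Matrix (Fin 2) (Fin 2) F) : ∃ i j, mn v A = v (A i j) := by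
  rw [mn]
  rcases max_choice (max (v (A 0 0)) (v (A 0 1))) (max (v (A 1 0)) (v (A 1 1))) with h | h <;> rw [h]
  · rcases max_choice (v (A 0 0)) (v (A 0 1)) with h | h <;> rw [h]
    exacts [⟨0, 0, rfl⟩, ⟨0, 1, rfl⟩]
  · rcases max_choice (v (A 1 0)) (v (A 1 1)) with h | h <;> rw [h]
    exacts [⟨1, 0, rfl⟩, ⟨1, 1, rfl⟩]

theorem mn_nonneg (A : Matrix (Fin 2) (Fin 2) F) : 0 ≤ mn v A :=
  (v.nonneg _).trans (le_mn v A 0 0)

theorem mn_pos {A : Matrix (Fin 2) (Fin 2) F} (h : A.det ≠ 0) : 0 < mn v A := by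
  by_contra hn
  have hz : ∀ i j, A i j = 0 := fun i j =>
    v.eq_zero.1 (le_antisymm ((le_mn v A i j).trans (not_lt.1 hn)) (v.nonneg _))
  exact h (by simp [det_fin_two, hz])

theorem mn_smul (s : F) (A : Matrix (Fin 2) (Fin 2) F) : mn v (s • A) = v s * mn v A := by
  simp only [mn, Matrix.smul_apply, smul_eq_mul, map_mul,
    ← mul_max_of_nonneg _ _ (v.nonneg s)]

theorem mn_adj (A : Matrix (Fin 2) (Fin 2) F) : mn v A.adjugate = mn v A := by
  apply le_antisymm <;> refine mn_le v fun i j => ?_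
  · fin_cases i <;> fin_cases j <;>
      simp [adjugate_fin_two, mn, v.map_neg]
  · have h := le_mn v A.adjugate
    fin_cases i <;> fin_cases j
    · simpa [adjugate_fin_two] using h 1 1
    · simpa [adjugate_fin_two, v.map_neg] using h 0 1
    · simpa [adjugate_fin_two, v.map_neg] using h 1 0
    · simpa [adjugate_fin_two] using h 0 0

theorem mn_one : mn v (1 : Matrix (Fin 2) (Fin 2) F) = 1 := by simp [mn]

variable {v} {c : ℝ} (hc : Quasi v c)

include hc

theorem c_pos : 0 < c := zero_lt_one.trans_le hc.1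

theorem mn_mul (A B : Matrix (Fin 2) (Fin 2) F) : mn v (A * B) ≤ c * (mn v A * mn v B) := by
  refine mn_le v fun i j => ?_
  rw [Matrix.mul_apply, Fin.sum_univ_two]
  refine (hc.2 _ _).trans (mul_le_mul_of_nonneg_left (max_le ?_ ?_) (c_pos hc).le) <;>
  · rw [map_mul]
    exact mul_le_mul (le_mn v A _ _) (le_mn v B _ _) (v.nonneg _) (mn_nonneg v A)

theorem mn_add (A B : Matrix (Fin 2) (Fin 2) F) : mn v (A + B) ≤ c * max (mn v A) (mn v B) :=
  mn_le v fun i j => (hc.2 _ _).trans (mul_le_mul_of_nonneg_left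
    (max_le_max (le_mn v A i j) (le_mn v B i j)) (c_pos hc).le)

theorem abs_det_le (A : Matrix (Fin 2) (Fin 2) F) : v A.det ≤ c * mn v A ^ 2 := by
  rw [det_fin_two, sub_eq_add_neg, pow_two]
  refine (hc.2 _ _).trans (mul_le_mul_of_nonneg_left (max_le ?_ ?_) (c_pos hc).le)
  · rw [map_mul]
    exact mul_le_mul (le_mn v A _ _) (le_mn v A _ _) (v.nonneg _) (mn_nonneg v A)
  · rw [v.map_neg, map_mul]
    exact mul_le_mul (le_mn v A _ _) (le_mn v A _ _) (v.nonneg _) (mn_nonneg v A)

/-- The four point inequality for two by two matrices. -/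
theorem four (A Y Z : Matrix (Fin 2) (Fin 2) F) : mn v Y * mn v (A * Z) ≤
    c * c * max (mn v (A * Y) * mn v Z) (mn v A * mn v (Y.adjugate * Z)) := by
  obtain ⟨i, j, hij⟩ := exists_max_entry v Y
  set m : Matrix (Fin 2) (Fin 2) F := Matrix.single j i 1 with hm
  have h1 : Y i j • (A * Z) = A * Y * (m * Z) + A * (m.adjugate * (Y.adjugate * Z)) := by
    have key : Y * m + (Y * m).adjugate = Y i j • (1 : Matrix (Fin 2) (Fin 2) F) := by
      ext a b
      fin_cases i <;> fin_cases j <;> fin_cases a <;> fin_cases b <;>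
        simp [hm, adjugate_fin_two, Matrix.mul_apply, Fin.sum_univ_two, Matrix.single]
    rw [adjugate_mul_distrib] at key
    calc Y i j • (A * Z) = A * (Y i j • (1 : Matrix (Fin 2) (Fin 2) F)) * Z := by
          rw [mul_smul_comm, mul_one, smul_mul_assoc]
      _ = _ := by rw [← key, mul_add, add_mul]; simp only [mul_assoc]
  have h2 : ∀ W, mn v (m * W) ≤ mn v W := fun W => mn_le v fun a b => by
    have h := le_mn v W
    fin_cases i <;> fin_cases j <;> fin_cases a <;>
      simp [hm, Matrix.mul_apply, Fin.sum_univ_two, Matrix.single, h, mn_nonneg]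
  have h3 : ∀ W, mn v (m.adjugate * W) ≤ mn v W := fun W => mn_le v fun a b => by
    have h := le_mn v W
    fin_cases i <;> fin_cases j <;> fin_cases a <;>
      simp [hm, adjugate_fin_two, Matrix.mul_apply, Fin.sum_univ_two, Matrix.single, h, mn_nonneg,
        v.map_neg]
  have hc0 := c_pos hc
  rw [hij, ← mn_smul, h1, mul_assoc c c, mul_max_of_nonneg _ _ hc0.le]
  refine (mn_add hc _ _).trans (mul_le_mul_of_nonneg_left (max_le ?_ ?_) hc0.le)
  · exact le_max_of_le_left ((mn_mul hc _ _).trans (mul_le_mul_of_nonneg_left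
      (mul_le_mul_of_nonneg_left (h2 Z) (mn_nonneg v _)) hc0.le))
  · exact le_max_of_le_right ((mn_mul hc _ _).trans (mul_le_mul_of_nonneg_left
      (mul_le_mul_of_nonneg_left (h3 _) (mn_nonneg v _)) hc0.le))

omit hc

variable (v)

/-- The displacement of an invertible matrix. -/
noncomputable def ell0 (g : GL (Fin 2) F) : ℝ :=
  Real.log (mn v (g : Matrix (Fin 2) (Fin 2) F) ^ 2 / v (g : Matrix (Fin 2) (Fin 2) F).det)

/-- The displacement of a class. -/
noncomputable def ell (x : PG F) : ℝ := ell0 v x.out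

theorem det_ne (g : GL (Fin 2) F) : (g : Matrix (Fin 2) (Fin 2) F).det ≠ 0 :=
  g.isUnit.map Matrix.detMonoidHom |>.ne_zero

theorem ell0_smul {g h : GL (Fin 2) F} {s : F} (hs : s ≠ 0)
    (e : (h : Matrix (Fin 2) (Fin 2) F) = s • (g : Matrix (Fin 2) (Fin 2) F)) :
    ell0 v h = ell0 v g := by
  rw [ell0, ell0, e, mn_smul, det_smul, Fintype.card_fin, map_mul, map_pow, mul_pow,
    mul_div_mul_left _ _ (pow_ne_zero 2 fun h => hs (v.eq_zero.1 h))]

theorem ell_mk (g : GL (Fin 2) F) : ell v (QuotientGroup.mk g) = ell0 v g := by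
  obtain ⟨⟨z, hz⟩, e⟩ := QuotientGroup.mk_out_eq_mul (Subgroup.center (GL (Fin 2) F)) g
  rw [Matrix.GeneralLinearGroup.center_eq_range_scalar] at hz
  obtain ⟨u, rfl⟩ := hz
  rw [ell, e]
  refine ell0_smul v u.ne_zero ?_
  simp [Matrix.GeneralLinearGroup.scalar, Matrix.scalar_apply, ← Matrix.smul_eq_mul_diagonal]

theorem ell_one : ell v (1 : PG F) = 0 := by
  rw [← QuotientGroup.mk_one, ell_mk, ell0]
  simp [mn_one]

theorem ell_inv (x : PG F) : ell v x⁻¹ = ell v x := by
  obtain ⟨g, rfl⟩ := QuotientGroup.mk_surjective x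
  rw [← QuotientGroup.mk_inv, ell_mk, ell_mk]
  have hd := det_ne g
  have e : ((g⁻¹ : GL (Fin 2) F) : Matrix (Fin 2) (Fin 2) F) =
      (g : Matrix (Fin 2) (Fin 2) F).det⁻¹ • (g : Matrix (Fin 2) (Fin 2) F).adjugate := by
    rw [Matrix.coe_units_inv, Matrix.inv_def, Ring.inverse_eq_inv']
  rw [ell0, ell0, e, mn_smul, mn_adj, det_smul, det_adjugate, Fintype.card_fin, map_mul]
  have hv : v (g : Matrix (Fin 2) (Fin 2) F).det ≠ 0 := fun h => hd (v.eq_zero.1 h)
  congr 1
  simp only [map_pow, map_inv₀, Nat.add_one_sub_one, pow_one]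
  field_simp

variable {v}

include hc

theorem ell_lower (x : PG F) : -Real.log c ≤ ell v x := by
  obtain ⟨g, rfl⟩ := QuotientGroup.mk_surjective x
  rw [ell_mk, ell0, ← Real.log_inv]
  have hd := v.pos (det_ne g)
  refine Real.log_le_log (inv_pos.2 (c_pos hc)) ?_
  rw [le_div_iff₀ hd, inv_mul_le_iff₀ (c_pos hc)]
  exact abs_det_le hc _

theorem ell_mul (x y : PG F) : ell v (x * y) ≤ ell v x + ell v y + 2 * Real.log c := by
  obtain ⟨g, rfl⟩ := QuotientGroup.mk_surjective x
  obtain ⟨h, rfl⟩ := QuotientGroup.mk_surjective y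
  rw [← QuotientGroup.mk_mul, ell_mk, ell_mk, ell_mk]
  set A := (g : Matrix (Fin 2) (Fin 2) F)
  set B := (h : Matrix (Fin 2) (Fin 2) F)
  have hA := v.pos (det_ne g)
  have hB := v.pos (det_ne h)
  have pA : 0 < mn v A := mn_pos v (det_ne g)
  have pB : 0 < mn v B := mn_pos v (det_ne h)
  have pAB : 0 < mn v (A * B) := mn_pos v (by rw [det_mul]; exact mul_ne_zero (det_ne g) (det_ne h))
  have hc0 := c_pos hc
  simp only [ell0, Units.val_mul]
  rw [← Real.log_mul (by positivity) (by positivity),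
    show (2 : ℝ) * Real.log c = Real.log (c ^ 2) by rw [Real.log_pow]; norm_num,
    ← Real.log_mul (by positivity) (by positivity)]
  refine Real.log_le_log (by rw [det_mul, map_mul]; positivity) ?_
  rw [det_mul, map_mul]
  calc mn v (A * B) ^ 2 / (v A.det * v B.det)
      ≤ (c * (mn v A * mn v B)) ^ 2 / (v A.det * v B.det) :=
        div_le_div_of_nonneg_right (pow_le_pow_left₀ pAB.le (mn_mul hc A B) 2) (by positivity)
    _ = _ := by simp only [A, B]; field_simp

theorem ell_four (x y z : PG F) : ell v (x⁻¹ * z) + ell v y ≤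
    max (ell v (x⁻¹ * y) + ell v z) (ell v x + ell v (y⁻¹ * z)) + 4 * Real.log c := by
  rw [← ell_inv v x]
  generalize x⁻¹ = x
  obtain ⟨g, rfl⟩ := QuotientGroup.mk_surjective x
  obtain ⟨h, rfl⟩ := QuotientGroup.mk_surjective y
  obtain ⟨k, rfl⟩ := QuotientGroup.mk_surjective z
  set A := (g : Matrix (Fin 2) (Fin 2) F)
  set Y := (h : Matrix (Fin 2) (Fin 2) F)
  set Z := (k : Matrix (Fin 2) (Fin 2) F)
  have hA := v.pos (det_ne g)
  have hY := v.pos (det_ne h)
  have hZ := v.pos (det_ne k)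
  have pY : 0 < mn v Y := mn_pos v (det_ne h)
  have pA : 0 < mn v A := mn_pos v (det_ne g)
  have pZ : 0 < mn v Z := mn_pos v (det_ne k)
  have pAY : 0 < mn v (A * Y) := mn_pos v (by rw [det_mul]; exact mul_ne_zero (det_ne g) (det_ne h))
  have pAZ : 0 < mn v (A * Z) := mn_pos v (by rw [det_mul]; exact mul_ne_zero (det_ne g) (det_ne k))
  have pYZ : 0 < mn v (Y.adjugate * Z) := mn_pos v (by
    rw [det_mul, det_adjugate]; simpa using mul_ne_zero (det_ne h) (det_ne k))
  have eYZ : ell v ((QuotientGroup.mk h)⁻¹ * QuotientGroup.mk k) =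
      Real.log (mn v (Y.adjugate * Z) ^ 2 / (v Y.det * v Z.det)) := by
    rw [← QuotientGroup.mk_inv, ← QuotientGroup.mk_mul, ell_mk, ell0, Units.val_mul,
      Matrix.coe_units_inv, Matrix.inv_def, Ring.inverse_eq_inv', smul_mul_assoc, mn_smul,
      det_smul, det_mul, det_adjugate, Fintype.card_fin]
    congr 1
    simp only [map_mul, map_pow, map_inv₀, Nat.add_one_sub_one, pow_one, Y, Z]
    field_simp
  rw [eYZ, ← QuotientGroup.mk_mul, ← QuotientGroup.mk_mul]
  simp only [ell_mk, ell0, Units.val_mul, det_mul, map_mul]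
  have hc0 := c_pos hc
  have e4 : (4 : ℝ) * Real.log c = Real.log (c ^ 4) := by rw [Real.log_pow]; norm_num
  have h4 := four hc A Y Z
  rcases le_total (mn v A * mn v (Y.adjugate * Z)) (mn v (A * Y) * mn v Z) with hle | hle
  · rw [max_eq_left hle] at h4
    refine le_trans ?_ (add_le_add (le_max_left _ _) le_rfl)
    rw [e4, ← Real.log_mul (by positivity) (by positivity),
      ← Real.log_mul (by positivity) (by positivity),
      ← Real.log_mul (by positivity) (by positivity)]
    refine Real.log_le_log (by positivity) ?_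
    have := pow_le_pow_left₀ (by positivity) h4 2
    calc mn v (A * Z) ^ 2 / (v A.det * v Z.det) * (mn v Y ^ 2 / v Y.det)
        = (mn v Y * mn v (A * Z)) ^ 2 / (v A.det * v Z.det * v Y.det) := by field_simp
      _ ≤ (c * c * (mn v (A * Y) * mn v Z)) ^ 2 / (v A.det * v Z.det * v Y.det) :=
          div_le_div_of_nonneg_right this (by positivity)
      _ = _ := by simp only [A, Y, Z]; field_simp
  · rw [max_eq_right hle] at h4
    refine le_trans ?_ (add_le_add (le_max_right _ _) le_rfl)
    rw [e4, ← Real.log_mul (by positivity) (by positivity),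
      ← Real.log_mul (by positivity) (by positivity),
      ← Real.log_mul (by positivity) (by positivity)]
    refine Real.log_le_log (by positivity) ?_
    have := pow_le_pow_left₀ (by positivity) h4 2
    calc mn v (A * Z) ^ 2 / (v A.det * v Z.det) * (mn v Y ^ 2 / v Y.det)
        = (mn v Y * mn v (A * Z)) ^ 2 / (v A.det * v Z.det * v Y.det) := by field_simp
      _ ≤ (c * c * (mn v A * mn v (Y.adjugate * Z))) ^ 2 / (v A.det * v Z.det * v Y.det) :=
          div_le_div_of_nonneg_right this (by positivity)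
      _ = _ := by simp only [A, Y, Z]; field_simp

omit hc

open Classical in
/-- The metric: the displacement, raised by a constant off the diagonal. -/
noncomputable def pd (v : AbsoluteValue F ℝ) (c : ℝ) (x y : PG F) : ℝ :=
  if x = y then 0 else ell v (x⁻¹ * y) + 2 * Real.log c

include hc

theorem log_c_nonneg : 0 ≤ Real.log c := Real.log_nonneg hc.1

theorem pd_bounds (x y : PG F) :
    ell v (x⁻¹ * y) ≤ pd v c x y ∧ pd v c x y ≤ ell v (x⁻¹ * y) + 2 * Real.log c := by
  have := log_c_nonneg hc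
  rw [pd]
  split_ifs with h
  · subst h
    rw [inv_mul_cancel, ell_one]
    constructor <;> linarith
  · constructor <;> linarith

theorem pd_nonneg (x y : PG F) : 0 ≤ pd v c x y := by
  rw [pd]
  split_ifs
  · exact le_rfl
  · linarith [ell_lower hc (x⁻¹ * y), log_c_nonneg hc]

theorem pd_triangle (x y z : PG F) : pd v c x z ≤ pd v c x y + pd v c y z := by
  by_cases h1 : x = y
  · subst h1; simp [pd]
  by_cases h2 : y = z
  · subst h2; simp [pd]
  refine (pd_bounds hc x z).2.trans ?_
  have h := ell_mul hc (x⁻¹ * y) (y⁻¹ * z)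
  rw [show x⁻¹ * y * (y⁻¹ * z) = x⁻¹ * z by group] at h
  rw [pd, if_neg h1, pd, if_neg h2]
  linarith

/-- The metric space: a quarter of `pd`, so that the constant stays below one. -/
@[reducible] noncomputable def pgMetric : PseudoMetricSpace (PG F) where
  dist x y := pd v c x y / 4
  dist_self x := by simp [pd]
  dist_comm x y := by
    show pd v c x y / 4 = pd v c y x / 4
    by_cases h : x = y
    · rw [h]
    · rw [pd, pd, if_neg h, if_neg (Ne.symm h), ← ell_inv v (x⁻¹ * y), _root_.mul_inv_rev, inv_inv]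
  dist_triangle x y z := by
    show pd v c x z / 4 ≤ pd v c x y / 4 + pd v c y z / 4
    linarith [pd_triangle hc x y z]

theorem pg_isom (g x y : PG F) : pd v c (g * x) (g * y) = pd v c x y := by
  have e : (g * x)⁻¹ * (g * y) = x⁻¹ * y := by group
  rw [pd, pd, e]
  by_cases h : x = y <;> simp [h]

theorem pg_hyp : @HY.Hyp (PG F) (pgMetric hc) (5 * Real.log c) := by
  let _inst := pgMetric hc
  intro o x y z
  have h := ell_four hc (o⁻¹ * x) (o⁻¹ * y) (o⁻¹ * z)
  rw [show (o⁻¹ * x)⁻¹ * (o⁻¹ * z) = x⁻¹ * z by group,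
    show (o⁻¹ * x)⁻¹ * (o⁻¹ * y) = x⁻¹ * y by group,
    show (o⁻¹ * y)⁻¹ * (o⁻¹ * z) = y⁻¹ * z by group] at h
  simp only [HY.gp, show ∀ a b : PG F, dist a b = pd v c a b / 4 from fun _ _ => rfl]
  have b1 := pd_bounds hc o x
  have b2 := pd_bounds hc o y
  have b3 := pd_bounds hc o z
  have b4 := pd_bounds hc x y
  have b5 := pd_bounds hc y z
  have b6 := pd_bounds hc x z
  have := log_c_nonneg hc
  rcases le_total (ell v (x⁻¹ * y) + ell v (o⁻¹ * z)) (ell v (o⁻¹ * x) + ell v (y⁻¹ * z))
    with hle | hle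
  · rw [max_eq_right hle] at h
    exact (min_le_right _ _).trans (by linarith) |>.trans le_rfl
  · rw [max_eq_left hle] at h
    exact (min_le_left _ _).trans (by linarith) |>.trans le_rfl

end Vale.Agent.P165.GL2
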