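import Vale.Agent.P165.GL2.Norm

/-!
# The projective group over the complex numbers has packing

A point of depth `r` on the way to one of the points is moved to the identity. Then the products are
bounded, and the normalised matrices of two points in one cell of a fine grid force them together.
-/

namespace Vale.Agent.P165.GL2

open Matrix ComplexConjugate
open scoped MatrixGroups

/-- The usual absolute value of a complex number. -/
noncomputable abbrev cabs : AbsoluteValue ℂ ℝ := NormedField.toAbsoluteValue ℂ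

theorem cabs_eq (z : ℂ) : cabs z = ‖z‖ := rfl

theorem quasi_complex : Quasi cabs (2 : ℝ) := ⟨one_le_two, fun x y => by
  simp only [cabs_eq]
  linarith [norm_add_le x y, le_max_left ‖x‖ ‖y‖, le_max_right ‖x‖ ‖y‖]⟩

/-- A point at depth `r` on the way to a given one. -/
theorem exists_way (x : PG ℂ) {r : ℝ} (hr : 0 ≤ r) (hx : r ≤ ell cabs x + 2 * Real.log 2) :
    ∃ q : PG ℂ, ell cabs q ≤ r + 2 * Real.log 2 ∧
      ell cabs (q⁻¹ * x) ≤ ell cabs x - r + 8 * Real.log 2 := by
  obtain ⟨g, rfl⟩ := QuotientGroup.mk_surjective x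
  rw [ell_mk] at hx
  set G := (g : Matrix (Fin 2) (Fin 2) ℂ) with hG
  have hd := cabs.pos (det_ne g)
  have hM : 0 < mn cabs G := mn_pos cabs (det_ne g)
  obtain ⟨i, j, hij⟩ := exists_max_entry cabs G
  set n : ℝ := √(‖G 0 j‖ ^ 2 + ‖G 1 j‖ ^ 2) with hn
  have hn2 : n ^ 2 = ‖G 0 j‖ ^ 2 + ‖G 1 j‖ ^ 2 := Real.sq_sqrt (by positivity)
  have hn0 : 0 ≤ n := Real.sqrt_nonneg _
  have hMn : mn cabs G ≤ n := by
    rw [hij, cabs_eq, hn]
    refine Real.le_sqrt_of_sq_le ?_
    fin_cases i <;> simp [sq_nonneg]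
  have hnpos : 0 < n := hM.trans_le hMn
  have hcol : ∀ l, ‖G l j‖ ≤ n := fun l => by
    rw [hn]; refine Real.le_sqrt_of_sq_le ?_
    fin_cases l <;> simp [sq_nonneg]
  set E : ℝ := Real.exp (r / 2) with hE
  have hE0 : 0 < E := Real.exp_pos _
  have hE1 : 1 ≤ E := Real.one_le_exp (by linarith)
  set Q : Matrix (Fin 2) (Fin 2) ℂ :=
    !![G 0 j / n * E, -conj (G 1 j) / n / E; G 1 j / n * E, conj (G 0 j) / n / E] with hQ
  have hQd : Q.det = 1 := by
    have h : (G 0 j * conj (G 0 j) + G 1 j * conj (G 1 j) : ℂ) = ((n ^ 2 : ℝ) : ℂ) := by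
      rw [hn2, Complex.mul_conj', Complex.mul_conj']; push_cast; rfl
    have hn' : (n : ℂ) ≠ 0 := Complex.ofReal_ne_zero.2 hnpos.ne'
    have hE' : (E : ℂ) ≠ 0 := Complex.ofReal_ne_zero.2 hE0.ne'
    rw [hQ, det_fin_two_of]
    field_simp
    push_cast at h
    linear_combination h
  set q : GL (Fin 2) ℂ := Matrix.GeneralLinearGroup.mkOfDetNeZero Q (by rw [hQd]; exact one_ne_zero)
  have hQe : ∀ a b, ‖Q a b‖ ≤ E := by
    intro a b
    have h0 : ‖G 0 j‖ / n ≤ 1 := (div_le_one hnpos).2 (hcol 0)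
    have h1 : ‖G 1 j‖ / n ≤ 1 := (div_le_one hnpos).2 (hcol 1)
    have hdiv : ∀ t : ℝ, 0 ≤ t → t ≤ 1 → t / E ≤ E := fun t _ ht => by
      rw [div_le_iff₀ hE0]; nlinarith
    fin_cases a <;> fin_cases b <;>
      simp [hQ, abs_of_pos hnpos, abs_of_pos hE0] <;>
      first
      | exact hdiv _ (by positivity) h1
      | exact hdiv _ (by positivity) h0
      | exact mul_le_of_le_one_left hE0.le h0
      | exact mul_le_of_le_one_left hE0.le h1
  refine ⟨QuotientGroup.mk q, ?_, ?_⟩
  · rw [ell_mk, ell0]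
    show Real.log (mn cabs Q ^ 2 / cabs Q.det) ≤ _
    rw [hQd, map_one, div_one]
    have hQ0 : 0 < mn cabs Q := mn_pos cabs (by rw [hQd]; exact one_ne_zero)
    have h : mn cabs Q ≤ E := mn_le cabs hQe
    have := Real.log_le_log (pow_pos hQ0 2) (pow_le_pow_left₀ hQ0.le h 2)
    rw [Real.log_pow, Real.log_pow, hE, Real.log_exp] at this
    push_cast at this
    rw [Real.log_pow]
    push_cast
    linarith [Real.log_nonneg (one_le_two : (1 : ℝ) ≤ 2)]
  · rw [← QuotientGroup.mk_inv, ← QuotientGroup.mk_mul, ell_mk, ell_mk]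
    have hi : (((q⁻¹ * g : GL (Fin 2) ℂ)) : Matrix (Fin 2) (Fin 2) ℂ) = Q.adjugate * G := by
      rw [Units.val_mul, Matrix.coe_units_inv, Matrix.inv_def]
      show Ring.inverse Q.det • Q.adjugate * G = _
      rw [hQd, Ring.inverse_one, one_smul]
    set T := cabs G.det
    set M := mn cabs G
    have key : ∀ a b, cabs ((Q.adjugate * G) a b) ≤ max (2 * M / E) (E * (T / M)) := by
      have h0 : ‖G 0 j‖ / n ≤ 1 := (div_le_one hnpos).2 (hcol 0)
      have h1 : ‖G 1 j‖ / n ≤ 1 := (div_le_one hnpos).2 (hcol 1)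
      have first_row : ∀ b, ‖conj (G 0 j) / n / E * G 0 b + conj (G 1 j) / n / E * G 1 b‖ ≤
          2 * M / E := fun b => by
        refine (norm_add_le _ _).trans ?_
        simp only [norm_mul, norm_div, Complex.norm_conj, Complex.norm_real, Real.norm_eq_abs,
          abs_of_pos hnpos, abs_of_pos hE0]
        have e0 := le_mn cabs G 0 b
        have e1 := le_mn cabs G 1 b
        rw [cabs_eq] at e0 e1
        have p0 : ‖G 0 j‖ / n / E * ‖G 0 b‖ ≤ 1 / E * M :=
          mul_le_mul (div_le_div_of_nonneg_right h0 hE0.le) e0 (norm_nonneg _) (by positivity)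
        have p1 : ‖G 1 j‖ / n / E * ‖G 1 b‖ ≤ 1 / E * M :=
          mul_le_mul (div_le_div_of_nonneg_right h1 hE0.le) e1 (norm_nonneg _) (by positivity)
        calc _ ≤ 1 / E * M + 1 / E * M := add_le_add p0 p1
          _ = _ := by ring
      have second_row : ∀ b, ‖-(G 1 j / n * E) * G 0 b + G 0 j / n * E * G 1 b‖ ≤ E * (T / M) :=
        fun b => by
        rw [show -(G 1 j / n * E) * G 0 b + G 0 j / n * E * G 1 b =
          (E : ℂ) * ((G 0 j * G 1 b - G 1 j * G 0 b) / n) by ring, norm_mul, norm_div,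
          Complex.norm_real, Complex.norm_real, Real.norm_eq_abs, Real.norm_eq_abs,
          abs_of_pos hnpos, abs_of_pos hE0]
        refine mul_le_mul_of_nonneg_left (div_le_div₀ (cabs.nonneg _) ?_ hM hMn) hE0.le
        simp only [T, cabs_eq, det_fin_two]
        fin_cases j <;> fin_cases b <;> simp [mul_comm, norm_sub_rev, norm_nonneg]
      have e0 : ∀ b, (Q.adjugate * G) 0 b =
          conj (G 0 j) / n / E * G 0 b + conj (G 1 j) / n / E * G 1 b := fun b => by
        rw [Matrix.mul_apply, Fin.sum_univ_two, adjugate_fin_two]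
        simp [hQ]
        ring
      have e1 : ∀ b, (Q.adjugate * G) 1 b =
          -(G 1 j / n * E) * G 0 b + G 0 j / n * E * G 1 b := fun b => by
        rw [Matrix.mul_apply, Fin.sum_univ_two, adjugate_fin_two]
        simp [hQ]
      refine Fin.forall_fin_two.2 ⟨fun b => ?_, fun b => ?_⟩
      · rw [cabs_eq, e0]; exact le_max_of_le_left (first_row b)
      · rw [cabs_eq, e1]; exact le_max_of_le_right (second_row b)
    have hP : 0 < mn cabs (Q.adjugate * G) := mn_pos cabs (by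
      rw [det_mul, det_adjugate, hQd]; simpa using det_ne g)
    have hET : E ^ 2 ≤ 4 * (M ^ 2 / T) := by
      have h := Real.exp_le_exp.2 hx
      rw [ell0, Real.exp_add, Real.exp_log (by positivity),
        show (2 : ℝ) * Real.log 2 = Real.log (2 ^ 2) by rw [Real.log_pow]; norm_num,
        Real.exp_log (by norm_num)] at h
      rw [hE, ← Real.exp_nat_mul, show ((2 : ℕ) : ℝ) * (r / 2) = r by push_cast; ring]
      linarith
    have hle : mn cabs (Q.adjugate * G) ≤ 4 * (M / E) := by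
      refine (mn_le cabs key).trans (max_le (by rw [mul_div_assoc]; linarith [div_pos hM hE0]) ?_)
      rw [← mul_div_assoc 4, mul_div_assoc', div_le_div_iff₀ hM hE0]
      have := mul_le_mul_of_nonneg_left hET hd.le
      rw [← mul_assoc, mul_comm T 4, mul_assoc, mul_div_cancel₀ _ hd.ne'] at this
      nlinarith
    rw [ell0, ell0, hi, det_mul, det_adjugate, hQd]
    simp only [one_pow, one_mul]
    have h16 : mn cabs (Q.adjugate * G) ^ 2 / T ≤ 16 * Real.exp (-r) * (M ^ 2 / T) := by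
      rw [← mul_div_assoc]
      refine div_le_div_of_nonneg_right ?_ hd.le
      refine (pow_le_pow_left₀ hP.le hle 2).trans (le_of_eq ?_)
      rw [mul_pow, div_pow, hE, ← Real.exp_nat_mul, Real.exp_neg,
        show ((2 : ℕ) : ℝ) * (r / 2) = r by push_cast; ring]
      ring
    have := Real.log_le_log (by positivity) h16
    rw [Real.log_mul (by positivity) (by positivity), Real.log_mul (by norm_num) (by positivity),
      Real.log_exp, show (16 : ℝ) = 2 ^ 4 by norm_num, Real.log_pow] at this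
    push_cast at this
    linarith [Real.log_nonneg (one_le_two : (1 : ℝ) ≤ 2)]

/-- A representative with all entries at most one and one of them one. -/
theorem exists_normal (x : PG ℂ) : ∃ M : Matrix (Fin 2) (Fin 2) ℂ, M.det ≠ 0 ∧ mn cabs M = 1 ∧
    ∀ h : M.det ≠ 0, QuotientGroup.mk (Matrix.GeneralLinearGroup.mkOfDetNeZero M h) = x := by
  obtain ⟨g, rfl⟩ := QuotientGroup.mk_surjective x
  have hM := mn_pos cabs (det_ne g)
  set s : ℂ := Complex.ofReal (mn cabs (g : Matrix (Fin 2) (Fin 2) ℂ))⁻¹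
  have hs : s ≠ 0 := Complex.ofReal_ne_zero.2 (inv_ne_zero hM.ne')
  refine ⟨s • (g : Matrix (Fin 2) (Fin 2) ℂ), ?_, ?_, fun h => ?_⟩
  · rw [det_smul]; exact mul_ne_zero (pow_ne_zero _ hs) (det_ne g)
  · rw [mn_smul, cabs_eq, Complex.norm_real, Real.norm_eq_abs, abs_of_pos (inv_pos.2 hM),
      inv_mul_cancel₀ hM.ne']
  · rw [QuotientGroup.eq, Matrix.GeneralLinearGroup.center_eq_range_scalar]
    refine ⟨(Units.mk0 s hs)⁻¹, ?_⟩
    rw [eq_inv_mul_iff_mul_eq]
    ext a b
    simp [Matrix.GeneralLinearGroup.scalar, Matrix.scalar_apply, mul_comm, hs]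

/-- Points with bounded products seen from the identity and far apart are boundedly many. -/
theorem exists_card_one (C : ℝ) : ∃ N : ℕ, ∀ s : Finset (PG ℂ),
    (∀ y ∈ s, ∀ z ∈ s, y ≠ z → 4 ≤ ell cabs (y⁻¹ * z) + 2 * Real.log 2 ∧
      ell cabs y + ell cabs z - C ≤ ell cabs (y⁻¹ * z)) → s.card ≤ N := by
  classical
  set κ : ℝ := min (Real.exp (-C / 2)) 1
  have hκ : 0 < κ := lt_min (Real.exp_pos _) one_pos
  have hκ1 : κ ≤ 1 := min_le_right _ _
  set η : ℝ := κ / 200
  have hη : 0 < η := by positivity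
  set K : ℤ := ⌈1 / η⌉ + 1
  set box : Finset (ℤ × ℤ) := Finset.Icc (-K) K ×ˢ Finset.Icc (-K) K
  set all : Finset (Fin 2 → Fin 2 → ℤ × ℤ) :=
    Fintype.piFinset fun _ => Fintype.piFinset fun _ => box
  refine ⟨all.card, fun s hs => ?_⟩
  choose M hdet hone hmk using exists_normal
  let code : PG ℂ → Fin 2 → Fin 2 → ℤ × ℤ := fun x a b =>
    (⌊(M x a b).re / η⌋, ⌊(M x a b).im / η⌋)
  refine Finset.card_le_card_of_injOn code (fun x _ => ?_) fun y hy z hz he => ?_
  · have h : ∀ a b, ∀ t : ℝ, |t| ≤ ‖M x a b‖ → ⌊t / η⌋ ∈ Finset.Icc (-K) K := by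
      intro a b t ht
      have h1 : ‖M x a b‖ ≤ 1 := hone x ▸ le_mn cabs (M x) a b
      have h2 : |t / η| ≤ 1 / η := by
        rw [abs_div, abs_of_pos hη]
        exact div_le_div_of_nonneg_right (ht.trans h1) hη.le
      obtain ⟨l, u⟩ := abs_le.1 h2
      have hK : (1 / η : ℝ) ≤ ((K - 1 : ℤ) : ℝ) := by simpa [K] using Int.le_ceil (1 / η)
      rw [Finset.mem_Icc]
      refine ⟨Int.le_floor.2 ?_, ?_⟩
      · push_cast at hK ⊢; linarith
      · exact Int.le_of_lt_add_one (Int.floor_lt.2 (by push_cast at hK ⊢; linarith))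
    simp only [Finset.mem_coe, all, box, Fintype.mem_piFinset, Finset.mem_product]
    exact fun a b => ⟨h a b _ (Complex.abs_re_le_norm _), h a b _ (Complex.abs_im_le_norm _)⟩
  by_contra hne
  obtain ⟨hsep, hprod⟩ := hs y hy z hz hne
  set A := M y
  set B := M z
  have hdiff : ∀ a b, ‖B a b - A a b‖ ≤ 2 * η := by
    intro a b
    obtain ⟨e1, e2⟩ := Prod.ext_iff.1 (congrFun (congrFun he a) b)
    have k1 := Int.abs_sub_lt_one_of_floor_eq_floor e1.symm
    have k2 := Int.abs_sub_lt_one_of_floor_eq_floor e2.symm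
    rw [← sub_div, abs_div, abs_of_pos hη, div_lt_one hη] at k1 k2
    refine (Complex.norm_le_abs_re_add_abs_im _).trans ?_
    simp only [Complex.sub_re, Complex.sub_im]
    linarith
  set εy := ‖A.det‖ with hεy
  set εz := ‖B.det‖ with hεz
  have py : 0 < εy := norm_pos_iff.2 (hdet y)
  have pz : 0 < εz := norm_pos_iff.2 (hdet z)
  have ey : ∀ x, ell cabs x = Real.log (1 / ‖(M x).det‖) := fun x => by
    conv_lhs => rw [← hmk x (hdet x)]
    rw [ell_mk, ell0]
    show Real.log (mn cabs (M x) ^ 2 / _) = _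
    rw [hone x, one_pow]; rfl
  have eyz : ell cabs (y⁻¹ * z) = Real.log (mn cabs (A.adjugate * B) ^ 2 / (εy * εz)) := by
    conv_lhs => rw [← hmk y (hdet y), ← hmk z (hdet z)]
    rw [← QuotientGroup.mk_inv, ← QuotientGroup.mk_mul, ell_mk, ell0, Units.val_mul,
      Matrix.coe_units_inv, Matrix.inv_def, Ring.inverse_eq_inv']
    show Real.log (mn cabs (A.det⁻¹ • A.adjugate * B) ^ 2 /
      cabs (A.det⁻¹ • A.adjugate * B).det) = _
    rw [smul_mul_assoc, mn_smul, det_smul, det_mul, det_adjugate, Fintype.card_fin]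
    simp only [map_mul, map_pow, map_inv₀, Nat.add_one_sub_one, pow_one, cabs_eq, ← hεy, ← hεz]
    congr 1
    field_simp
  have hP : 0 < mn cabs (A.adjugate * B) := mn_pos cabs (by
    rw [det_mul, det_adjugate]; simpa using mul_ne_zero (hdet y) (hdet z))
  have hAle : ∀ a b, ‖A a b‖ ≤ 1 := fun a b => hone y ▸ le_mn cabs A a b
  have hBle : ∀ a b, ‖B a b‖ ≤ 1 := fun a b => hone z ▸ le_mn cabs B a b
  have hnear : mn cabs (A.adjugate * B) ≤ εy + 4 * η := mn_le cabs fun a b => by
    have e : A.adjugate * B = A.det • (1 : Matrix (Fin 2) (Fin 2) ℂ) + A.adjugate * (B - A) := by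
      rw [mul_sub, adjugate_mul]; abel
    rw [cabs_eq, e, Matrix.add_apply, Matrix.smul_apply]
    refine (norm_add_le _ _).trans (add_le_add ?_ ?_)
    · rw [smul_eq_mul, norm_mul, Matrix.one_apply]
      split_ifs <;> simp [hεy]
    · rw [Matrix.mul_apply, Fin.sum_univ_two]
      refine (norm_add_le _ _).trans ?_
      have hadj : ∀ c, ‖A.adjugate a c‖ ≤ 1 := fun c => by
        fin_cases a <;> fin_cases c <;> simp [adjugate_fin_two, hAle]
      simp only [norm_mul, Matrix.sub_apply]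
      nlinarith [hadj 0, hadj 1, hdiff 0 b, hdiff 1 b, norm_nonneg (A.adjugate a 0),
        norm_nonneg (A.adjugate a 1), norm_nonneg (B 0 b - A 0 b), norm_nonneg (B 1 b - A 1 b)]
  have hdd : εy - εz ≤ 8 * η := by
    refine (norm_sub_norm_le A.det B.det).trans ?_
    rw [det_fin_two, det_fin_two,
      show A 0 0 * A 1 1 - A 0 1 * A 1 0 - (B 0 0 * B 1 1 - B 0 1 * B 1 0) =
        (A 0 0 - B 0 0) * A 1 1 + B 0 0 * (A 1 1 - B 1 1) -
          ((A 0 1 - B 0 1) * A 1 0 + B 0 1 * (A 1 0 - B 1 0)) by ring]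
    have d : ∀ a b, ‖A a b - B a b‖ ≤ 2 * η := fun a b => norm_sub_rev (A a b) (B a b) ▸ hdiff a b
    refine (norm_sub_le _ _).trans ((add_le_add (norm_add_le _ _) (norm_add_le _ _)).trans ?_)
    simp only [norm_mul]
    nlinarith [d 0 0, d 1 1, d 0 1, d 1 0, hAle 1 1, hBle 0 0, hAle 1 0, hBle 0 1,
      norm_nonneg (A 0 0 - B 0 0), norm_nonneg (A 1 1 - B 1 1), norm_nonneg (A 0 1 - B 0 1),
      norm_nonneg (A 1 0 - B 1 0)]
  have hlow : κ ≤ mn cabs (A.adjugate * B) := by
    rw [eyz, ey y, ey z] at hprod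
    change Real.log (1 / εy) + Real.log (1 / εz) - C ≤ _ at hprod
    rw [← Real.log_mul (by positivity) (by positivity)] at hprod
    have h2 := Real.exp_le_exp.2 hprod
    rw [Real.exp_sub, Real.exp_log (by positivity), Real.exp_log (by positivity),
      one_div_mul_one_div, div_div, div_le_div_iff₀ (by positivity) (by positivity), one_mul] at h2
    have h3 : Real.exp (-C) ≤ mn cabs (A.adjugate * B) ^ 2 := by
      rw [Real.exp_neg, inv_le_iff_one_le_mul₀ (Real.exp_pos C)]
      nlinarith [mul_pos py pz]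
    have h4 : Real.exp (-C / 2) ^ 2 = Real.exp (-C) := by
      rw [← Real.exp_nat_mul]; congr 1; push_cast; ring
    exact (min_le_left _ _).trans (pow_le_pow_iff_left₀ (Real.exp_pos _).le hP.le two_ne_zero |>.1
      (h4 ▸ h3))
  have hbig : 100 * η ≤ εy := by linarith [show η = κ / 200 from rfl]
  rw [eyz] at hsep
  have h2 : mn cabs (A.adjugate * B) ^ 2 / (εy * εz) ≤ 2 := by
    rw [div_le_iff₀ (mul_pos py pz)]
    nlinarith [pow_le_pow_left₀ hP.le hnear 2]
  have := Real.log_le_log (by positivity) h2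
  linarith [Real.log_two_lt_d9]

theorem packing_complex : @HY.Packing (PG ℂ) (pgMetric quasi_complex) := by
  classical
  let _inst := pgMetric quasi_complex
  have hd : ∀ a b : PG ℂ, dist a b = pd cabs 2 a b / 4 := fun _ _ => rfl
  have hL := Real.log_nonneg (one_le_two : (1 : ℝ) ≤ 2)
  intro A
  set K : ℝ := |A| + 20 * Real.log 2
  obtain ⟨N, hN⟩ := exists_card_one (24 * K)
  refine ⟨max N 1, fun o r hr s hs hpair => ?_⟩
  by_cases h1 : s.card ≤ 1
  · exact h1.trans (le_max_right _ _)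
  push Not at h1
  obtain ⟨x₁, hx₁, -⟩ := Finset.one_lt_card.1 h1
  have hb := pd_bounds quasi_complex (v := cabs)
  have hfirst : 4 * r ≤ ell cabs (o⁻¹ * x₁) + 2 * Real.log 2 := by
    have := hs x₁ hx₁
    rw [hd] at this
    linarith [(hb o x₁).2]
  obtain ⟨q', hq1, hq2⟩ := exists_way (o⁻¹ * x₁) (by linarith : (0 : ℝ) ≤ 4 * r) hfirst
  set q := o * q'
  have e1 : o⁻¹ * q = q' := by simp [q]
  have e2 : q⁻¹ * x₁ = q'⁻¹ * (o⁻¹ * x₁) := by simp [q, mul_assoc]
  rw [← e1] at hq1
  rw [← e2] at hq2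
  have hgp : ∀ a b : PG ℂ, HY.gp o a b = (pd cabs 2 o a + pd cabs 2 o b - pd cabs 2 a b) / 8 :=
    fun a b => by rw [HY.gp, hd, hd, hd]; ring
  have hq : ∀ x ∈ s, r - |A| - 11 * Real.log 2 ≤ HY.gp o q x := by
    have hbase : r - 3 * Real.log 2 ≤ HY.gp o q x₁ := by
      have h := ell_mul quasi_complex (o⁻¹ * q) (q⁻¹ * x₁)
      rw [show o⁻¹ * q * (q⁻¹ * x₁) = o⁻¹ * x₁ by group] at h
      rw [hgp]
      linarith [(hb o q).1, (hb o x₁).1, (hb q x₁).2]
    intro x hx
    rcases eq_or_ne x₁ x with rfl | hne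
    · linarith [abs_nonneg A]
    have h2 := abs_le.1 (hpair hx₁ hx hne).2
    have h := pg_hyp quasi_complex o q x₁ x
    have hδ : (5 : ℝ) * Real.log 2 ≤ 9 * Real.log 2 := by linarith
    rcases le_total (HY.gp o q x₁) (HY.gp o x₁ x) with hle | hle
    · rw [min_eq_left hle] at h; linarith [abs_nonneg A]
    · rw [min_eq_right hle] at h; linarith [le_abs_self A]
  have hinj : Set.InjOn (fun x => q⁻¹ * x) (s : Set (PG ℂ)) := fun a _ b _ h => mul_left_cancel h
  rw [← Finset.card_image_of_injOn hinj]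
  refine (hN _ fun y hy z hz hne => ?_).trans (le_max_left _ _)
  obtain ⟨a, ha, rfl⟩ := Finset.mem_image.1 hy
  obtain ⟨b, hb', rfl⟩ := Finset.mem_image.1 hz
  have hab : a ≠ b := fun h => hne (by rw [h])
  obtain ⟨d1, d2⟩ := hpair ha hb' hab
  rw [show (q⁻¹ * a)⁻¹ * (q⁻¹ * b) = a⁻¹ * b by group]
  rw [hd] at d1
  refine ⟨by linarith [(hb a b).2], ?_⟩
  have h := HY.gp_reroot q o a b
  have hqa := hq a ha
  have hqb := hq b hb'
  have hA := (abs_le.1 d2).2
  simp only [HY.gp, hd] at h hqa hqb hA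
  linarith [(hb q a).1, (hb q b).1, (hb a b).2, (hb o q).2, le_abs_self A, abs_nonneg A,
    show pd cabs 2 q o = pd cabs 2 o q from by
      have := dist_comm q o; rw [hd, hd] at this; linarith]

end Vale.Agent.P165.GL2
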