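import Vale.Agent.P165.GL2.Defs

/-!
# Images in the projective group of degree two: traces

If no finite index subgroup has solvable image, then after a conjugation the preimage in `SL2` of
the image contains a diagonal matrix and a matrix whose entries off the diagonal do not vanish.
Four traces then determine a matrix.
-/

namespace Vale.Agent.P165.GL2

open Matrix
open scoped MatrixGroups

variable {Γ : Type} [Group Γ] {F L : Type} [Field F] [Field L]

/-- The projection of the special linear group. -/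
noncomputable def toPG : SpecialLinearGroup (Fin 2) L →* PG L :=
  (QuotientGroup.mk' _).comp SpecialLinearGroup.toGL

theorem coe_mul2 (x y : SpecialLinearGroup (Fin 2) L) (i j : Fin 2) :
    (x * y).1 i j = x.1 i 0 * y.1 0 j + x.1 i 1 * y.1 1 j := by
  simp [Matrix.mul_apply, Fin.sum_univ_two]

theorem inv2 (x : SpecialLinearGroup (Fin 2) L) : (x⁻¹).1 0 0 = x.1 1 1 ∧
    (x⁻¹).1 0 1 = -x.1 0 1 ∧ (x⁻¹).1 1 0 = -x.1 1 0 ∧ (x⁻¹).1 1 1 = x.1 0 0 := by
  simp [Matrix.adjugate_fin_two]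

theorem det2 (x : SpecialLinearGroup (Fin 2) L) :
    x.1 0 0 * x.1 1 1 - x.1 0 1 * x.1 1 0 = 1 := by
  rw [← Matrix.det_fin_two]
  exact x.2

theorem ext2 {x y : SpecialLinearGroup (Fin 2) L} (h00 : x.1 0 0 = y.1 0 0)
    (h01 : x.1 0 1 = y.1 0 1) (h10 : x.1 1 0 = y.1 1 0) (h11 : x.1 1 1 = y.1 1 1) : x = y := by
  apply Subtype.ext
  ext i j
  fin_cases i <;> fin_cases j <;> assumption

/-- The trace. -/
def tra (x : SpecialLinearGroup (Fin 2) L) : L := x.1 0 0 + x.1 1 1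

theorem tra_conj (Q x : SpecialLinearGroup (Fin 2) L) : tra (Q * x * Q⁻¹) = tra x := by
  obtain ⟨h00, h01, h10, h11⟩ := inv2 Q
  have hd := det2 Q
  simp only [tra, coe_mul2, h00, h01, h10, h11]
  linear_combination (x.1 0 0 + x.1 1 1) * hd

theorem mem_center2 {g : GL (Fin 2) L} (h : g ∈ Subgroup.center (GL (Fin 2) L)) :
    g.1 0 1 = 0 ∧ g.1 1 0 = 0 ∧ g.1 0 0 = g.1 1 1 := by
  obtain ⟨a, ha⟩ := GeneralLinearGroup.mem_center_iff_val_mem_range_scalar.1 h
  rw [← ha]
  simp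

theorem center2 {g : GL (Fin 2) L} (h01 : g.1 0 1 = 0) (h10 : g.1 1 0 = 0)
    (hd : g.1 0 0 = g.1 1 1) : g ∈ Subgroup.center (GL (Fin 2) L) := by
  refine GeneralLinearGroup.mem_center_iff_val_mem_range_scalar.2 ⟨g.1 0 0, ?_⟩
  ext i j
  fin_cases i <;> fin_cases j <;> simp [h01, h10, hd]

theorem toPG_eq {x y : SpecialLinearGroup (Fin 2) L} (h : toPG x = toPG y) :
    ∃ a : L, (a = 1 ∨ a = -1) ∧ ∀ i j, x.1 i j = a * y.1 i j := by
  have hc : SpecialLinearGroup.toGL (y⁻¹ * x) ∈ Subgroup.center (GL (Fin 2) L) := by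
    rw [map_mul, map_inv]
    exact QuotientGroup.eq.1 h.symm
  obtain ⟨h01, h10, hd⟩ := mem_center2 hc
  set z := y⁻¹ * x with hz
  change z.1 0 1 = 0 at h01
  change z.1 1 0 = 0 at h10
  change z.1 0 0 = z.1 1 1 at hd
  refine ⟨z.1 0 0, ?_, fun i j => ?_⟩
  · have h := det2 z
    rw [h01, h10, ← hd, mul_zero, sub_zero] at h
    exact mul_self_eq_one_iff.1 h
  · have : x = y * z := by rw [hz, mul_inv_cancel_left]
    rw [this, coe_mul2]
    fin_cases j <;> simp [h01, h10, ← hd, mul_comm]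

theorem toPG_surjective [IsAlgClosed L] : Function.Surjective (toPG (L := L)) := by
  intro c
  obtain ⟨g, rfl⟩ := QuotientGroup.mk'_surjective _ c
  obtain ⟨r, hr⟩ := IsAlgClosed.exists_pow_nat_eq g.1.det two_pos
  have hd : g.1.det ≠ 0 := g.det_ne_zero
  have hr0 : r ≠ 0 := fun e => hd (by rw [← hr, e]; simp)
  obtain ⟨y, hy⟩ : ∃ y : SpecialLinearGroup (Fin 2) L, y.1 = r⁻¹ • g.1 :=
    ⟨⟨r⁻¹ • g.1, by rw [Matrix.det_smul, Fintype.card_fin, ← hr]; field_simp⟩, rfl⟩
  refine ⟨y, QuotientGroup.eq.2 ?_⟩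
  have hg : g = GeneralLinearGroup.scalar (Fin 2) (Units.mk0 r hr0) *
      SpecialLinearGroup.toGL y := by
    apply Units.ext
    ext i j
    simp [Matrix.scalar_apply, hy, hr0]
  have hc : GeneralLinearGroup.scalar (Fin 2) (Units.mk0 r hr0) ∈
      Subgroup.center (GL (Fin 2) L) := by
    rw [GeneralLinearGroup.center_eq_range_scalar]
    exact ⟨_, rfl⟩
  rw [hg, (Subgroup.mem_center_iff.1 hc _).symm, ← mul_assoc, inv_mul_cancel, one_mul]
  exact hc

/-- The change of scalars. -/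
def PGmap (f : F →+* L) : PG F →* PG L :=
  QuotientGroup.map _ _ (GeneralLinearGroup.map (n := Fin 2) f)
    (GeneralLinearGroup.map_center_le f)

theorem PGmap_injective (f : F →+* L) : Function.Injective (PGmap f) := by
  rw [injective_iff_map_eq_one]
  intro c hc
  obtain ⟨g, rfl⟩ := QuotientGroup.mk'_surjective _ c
  obtain ⟨h01, h10, hd⟩ := mem_center2 ((QuotientGroup.eq_one_iff _).1 hc)
  exact (QuotientGroup.eq_one_iff _).2 <| center2
    (f.injective (by simpa using h01)) (f.injective (by simpa using h10))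
    (f.injective (by simpa using hd))

theorem PGmap_toPG (f : F →+* L) (x : SpecialLinearGroup (Fin 2) F) :
    PGmap f (toPG x) = toPG (SpecialLinearGroup.map f x) := by
  simp only [PGmap, toPG, MonoidHom.comp_apply, QuotientGroup.mk'_apply, QuotientGroup.map_mk]
  congr 1
  apply Units.ext
  ext i j
  simp

theorem NotVS.of_ker {H H' : Type} [Group H] [Group H'] {φ : Γ →* H} (hφ : NotVS φ) (f : H →* H')
    (hf : f.ker ≤ Subgroup.center H) : NotVS (f.comp φ) := by
  intro S hS hsol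
  apply hφ S hS
  rw [← Subgroup.map_map] at hsol
  let p := f.subgroupMap (S.map φ)
  have : Group.IsSolvable p.ker := Group.isSolvable_of_comm fun a b => by
    apply Subtype.ext
    apply Subtype.ext
    refine (Subgroup.mem_center_iff.1 (hf ?_) a.1.1).symm.symm
    exact congrArg Subtype.val (MonoidHom.mem_ker.1 b.2)
  exact Group.isSolvable_of_ker_le_range p.ker.subtype p (by rw [Subgroup.range_subtype])

theorem NotVS.of_comp {H H' : Type} [Group H] [Group H'] {φ : Γ →* H} (f : H →* H')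
    (hφ : NotVS (f.comp φ)) : NotVS φ := by
  intro S hS hsol
  apply hφ S hS
  rw [← Subgroup.map_map]
  exact Group.isSolvable_of_surjective (MonoidHom.subgroupMap_surjective f (S.map φ))

/-- A conjugated homomorphism. -/
noncomputable def cj (Q : SpecialLinearGroup (Fin 2) L) (ψ : Γ →* PG L) : Γ →* PG L :=
  (MulAut.conj (toPG Q)).toMonoidHom.comp ψ

theorem NotVS.cj {ψ : Γ →* PG L} (hψ : NotVS ψ) (Q : SpecialLinearGroup (Fin 2) L) :
    NotVS (cj Q ψ) :=
  hψ.of_ker _ (by rw [(MonoidHom.ker_eq_bot_iff _).2 (MulEquiv.injective _)]; exact bot_le)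

/-- The matrices of determinant one over the image. -/
noncomputable def grp (ψ : Γ →* PG L) : Subgroup (SpecialLinearGroup (Fin 2) L) :=
  ψ.range.comap toPG

theorem mem_cj {ψ : Γ →* PG L} {x : SpecialLinearGroup (Fin 2) L} (hx : x ∈ grp ψ)
    (Q : SpecialLinearGroup (Fin 2) L) : Q * x * Q⁻¹ ∈ grp (cj Q ψ) := by
  obtain ⟨γ, hγ⟩ := hx
  refine ⟨γ, ?_⟩
  simp [GL2.cj, hγ]

theorem grp_infinite [IsAlgClosed L] {ψ : Γ →* PG L} (hψ : NotVS ψ) :
    ¬ (grp ψ : Set (SpecialLinearGroup (Fin 2) L)).Finite := by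
  intro h
  have hr : (ψ.range : Set (PG L)).Finite := by
    rw [← Subgroup.map_comap_eq_self_of_surjective (toPG_surjective (L := L)) ψ.range,
      Subgroup.coe_map]
    exact h.image _
  have : Finite ψ.range := hr.to_subtype
  have hfi : ψ.ker.FiniteIndex := by
    refine ⟨?_⟩
    rw [Subgroup.index_ker]
    exact Nat.card_pos.ne'
  apply hψ ψ.ker hfi
  rw [(Subgroup.map_eq_bot_iff _).2 le_rfl]
  infer_instance

theorem grp_not_solvable [IsAlgClosed L] {ψ : Γ →* PG L} (hψ : NotVS ψ) :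
    ¬ Group.IsSolvable (grp ψ) := by
  intro h
  apply hψ ⊤ inferInstance
  rw [← MonoidHom.range_eq_map,
    ← Subgroup.map_comap_eq_self_of_surjective (toPG_surjective (L := L)) ψ.range]
  exact Group.isSolvable_of_surjective (MonoidHom.subgroupMap_surjective toPG (grp ψ))

/-- A group of triangular matrices is solvable. -/
theorem solvable_tri (S : Subgroup (SpecialLinearGroup (Fin 2) L))
    (h : (∀ x ∈ S, x.1 1 0 = 0) ∨ ∀ x ∈ S, x.1 0 1 = 0) : Group.IsSolvable S := by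
  have hz : ∀ x ∈ S, x.1 0 1 * x.1 1 0 = 0 := fun x hx => by
    rcases h with h | h <;> simp [h x hx]
  let χ : S →* L :=
    { toFun := fun x => x.1.1 0 0
      map_one' := by simp
      map_mul' := fun x y => by
        rw [Subgroup.coe_mul, coe_mul2]
        rcases h with h | h
        · simp [h y.1 y.2]
        · simp [h x.1 x.2] }
  let g : S →* Lˣ := χ.toHomUnits
  have hker : ∀ a b : g.ker, a * b = b * a := by
    rintro ⟨⟨x, hx⟩, hgx⟩ ⟨⟨y, hy⟩, hgy⟩
    have kx : x.1 0 0 = 1 := by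
      have := congrArg Units.val (MonoidHom.mem_ker.1 hgx)
      simpa [g, χ] using this
    have ky : y.1 0 0 = 1 := by
      have := congrArg Units.val (MonoidHom.mem_ker.1 hgy)
      simpa [g, χ] using this
    have dx : x.1 1 1 = 1 := by
      have hd := det2 x
      rwa [kx, hz x hx, sub_zero, one_mul] at hd
    have dy : y.1 1 1 = 1 := by
      have hd := det2 y
      rwa [ky, hz y hy, sub_zero, one_mul] at hd
    apply Subtype.ext
    apply Subtype.ext
    apply ext2 <;> simp only [Subgroup.coe_mul, coe_mul2, kx, ky, dx, dy]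
    · rcases h with h | h <;> rw [h x hx, h y hy] <;> ring
    · ring
    · ring
    · rcases h with h | h <;> rw [h x hx, h y hy] <;> ring
  have : Group.IsSolvable g.ker := Group.isSolvable_of_comm hker
  exact Group.isSolvable_of_ker_le_range g.ker.subtype g (by rw [Subgroup.range_subtype])

theorem exists_ten [IsAlgClosed L] {ψ : Γ →* PG L} (hψ : NotVS ψ) :
    ∃ h ∈ grp ψ, h.1 1 0 ≠ 0 := by
  by_contra hc
  exact grp_not_solvable hψ (solvable_tri _ (Or.inl fun x hx => by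
    by_contra hx'
    exact hc ⟨x, hx, hx'⟩))

theorem exists_zero_one [IsAlgClosed L] {ψ : Γ →* PG L} (hψ : NotVS ψ) :
    ∃ h ∈ grp ψ, h.1 0 1 ≠ 0 := by
  by_contra hc
  exact grp_not_solvable hψ (solvable_tri _ (Or.inr fun x hx => by
    by_contra hx'
    exact hc ⟨x, hx, hx'⟩))

/-- A root of the characteristic polynomial becomes the first entry of a triangular conjugate. -/
theorem exists_upper (x : SpecialLinearGroup (Fin 2) L) {a : L} (ha : a * a - tra x * a + 1 = 0) :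
    ∃ Q : SpecialLinearGroup (Fin 2) L,
      (Q * x * Q⁻¹).1 1 0 = 0 ∧ (Q * x * Q⁻¹).1 0 0 = a := by
  have hd := det2 x
  have key : ∀ c : L, x.1 1 0 * c * c + (x.1 1 1 - x.1 0 0) * c - x.1 0 1 = 0 →
      x.1 1 0 * c + x.1 1 1 = a →
      ∃ Q : SpecialLinearGroup (Fin 2) L,
        (Q * x * Q⁻¹).1 1 0 = 0 ∧ (Q * x * Q⁻¹).1 0 0 = a := by
    intro c h1 h2
    let Q : SpecialLinearGroup (Fin 2) L := ⟨!![0, 1; -1, c], by simp [Matrix.det_fin_two]⟩
    refine ⟨Q, ?_⟩
    obtain ⟨h00, -, h10, -⟩ := inv2 Q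
    simp only [coe_mul2, h00, h10]
    refine ⟨?_, ?_⟩ <;> simp [Q]
    · linear_combination h1
    · linear_combination h2
  by_cases h10 : x.1 1 0 = 0
  · by_cases h00 : x.1 0 0 = a
    · exact ⟨1, by simpa using h10, by simpa using h00⟩
    have hd' : x.1 0 0 * x.1 1 1 = 1 := by simpa [h10] using hd
    have h11 : x.1 1 1 = a := by
      have : (a - x.1 0 0) * (a - x.1 1 1) = 0 := by
        rw [tra] at ha
        linear_combination ha + hd'
      rcases mul_eq_zero.1 this with h | h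
      · exact absurd (sub_eq_zero.1 h).symm h00
      · exact (sub_eq_zero.1 h).symm
    refine key (x.1 0 1 / (a - x.1 0 0)) ?_ (by simp [h10, h11])
    have hne : a - x.1 0 0 ≠ 0 := sub_ne_zero.2 fun e => h00 e.symm
    rw [h10, h11]
    field_simp
    ring
  · refine key ((a - x.1 1 1) / x.1 1 0) ?_ (by field_simp; ring)
    field_simp
    rw [tra] at ha
    linear_combination ha + hd

/-- Two distinct eigenvalues give a diagonal conjugate. -/
theorem exists_diag (x : SpecialLinearGroup (Fin 2) L) {a : L} (ha : a * a - tra x * a + 1 = 0)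
    (hne : a * a ≠ 1) : ∃ Q : SpecialLinearGroup (Fin 2) L,
      (Q * x * Q⁻¹).1 1 0 = 0 ∧ (Q * x * Q⁻¹).1 0 1 = 0 ∧ (Q * x * Q⁻¹).1 0 0 = a ∧
        (Q * x * Q⁻¹).1 1 1 = a⁻¹ := by
  obtain ⟨T, h10, h00⟩ := exists_upper x ha
  set y := T * x * T⁻¹ with hy
  have hd := det2 y
  rw [h10, h00, mul_zero, sub_zero] at hd
  have hy11 : y.1 1 1 = a⁻¹ := eq_inv_of_mul_eq_one_right hd
  have hs : a - y.1 1 1 ≠ 0 := fun e => hne (by rwa [← sub_eq_zero.1 e] at hd)
  let U : SpecialLinearGroup (Fin 2) L :=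
    ⟨!![1, y.1 0 1 / (a - y.1 1 1); 0, 1], by simp [Matrix.det_fin_two]⟩
  refine ⟨U * T, ?_⟩
  have e : U * T * x * (U * T)⁻¹ = U * y * U⁻¹ := by rw [hy]; group
  obtain ⟨u00, u01, u10, u11⟩ := inv2 U
  rw [e]
  simp only [coe_mul2, u00, u01, u10, u11]
  refine ⟨by simp [U, h10], ?_, by simp [U, h10, h00], by simp [U, h10, hy11]⟩
  simp [U, h10, h00]
  field_simp
  ring

theorem exists_root_tra [IsAlgClosed L] (x : SpecialLinearGroup (Fin 2) L) :
    ∃ a : L, a * a - tra x * a + 1 = 0 := by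
  obtain ⟨a, ha⟩ := IsAlgClosed.exists_root
    (Polynomial.C 1 * Polynomial.X ^ 2 + Polynomial.C (-tra x) * Polynomial.X + Polynomial.C 1)
    (by rw [Polynomial.degree_quadratic one_ne_zero]; decide)
  refine ⟨a, ?_⟩
  simp only [Polynomial.IsRoot, Polynomial.eval_add, Polynomial.eval_mul, Polynomial.eval_pow,
    Polynomial.eval_C, Polynomial.eval_X] at ha
  linear_combination ha

theorem root_ne_zero {t a : L} (ha : a * a - t * a + 1 = 0) : a ≠ 0 := by
  rintro rfl
  simp at ha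

theorem root_tra {t a : L} (ha : a * a - t * a + 1 = 0) : a + a⁻¹ = t := by
  have := root_ne_zero ha
  field_simp
  linear_combination ha

/-- Some trace is different from two and minus two. -/
theorem exists_trace_ne [IsAlgClosed L] {ψ : Γ →* PG L} (hψ : NotVS ψ) :
    ∃ g ∈ grp ψ, tra g ^ 2 ≠ 4 := by
  by_contra hc
  have hall : ∀ g ∈ grp ψ, tra g ^ 2 = 4 := fun g hg => by
    by_contra h
    exact hc ⟨g, hg, h⟩
  obtain ⟨g, hg, hgns⟩ : ∃ g ∈ grp ψ, ¬ (g.1 0 1 = 0 ∧ g.1 1 0 = 0 ∧ g.1 0 0 = g.1 1 1) := by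
    by_contra h
    refine grp_not_solvable hψ (solvable_tri _ (Or.inl fun x hx => ?_))
    by_contra hx'
    exact h ⟨x, hx, fun e => hx' e.2.1⟩
  obtain ⟨a, ha⟩ := exists_root_tra g
  obtain ⟨Q, hy10, hy00⟩ := exists_upper g ha
  set y := Q * g * Q⁻¹ with hy
  have hy' : y ∈ grp (cj Q ψ) := mem_cj hg Q
  have hall' : ∀ z ∈ grp (cj Q ψ), tra z ^ 2 = 4 := by
    intro z hz
    obtain ⟨γ, hγ⟩ := hz
    have : Q⁻¹ * z * Q ∈ grp ψ := by
      refine ⟨γ, ?_⟩
      rw [map_mul, map_mul, map_inv, ← hγ]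
      simp [GL2.cj, mul_assoc]
    have h := hall _ this
    have e := tra_conj Q⁻¹ z
    rw [inv_inv] at e
    rwa [e] at h
  have hdy := det2 y
  rw [hy10, mul_zero, sub_zero] at hdy
  have hty := hall' y hy'
  rw [tra] at hty
  have hdiag : y.1 1 1 = y.1 0 0 := by
    have : (y.1 1 1 - y.1 0 0) ^ 2 = 0 := by linear_combination hty - 4 * hdy
    exact sub_eq_zero.1 (pow_eq_zero_iff two_ne_zero |>.1 this)
  have hb : y.1 0 1 ≠ 0 := by
    intro hb
    apply hgns
    have hyc : y.1 = y.1 0 0 • (1 : Matrix (Fin 2) (Fin 2) L) := by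
      ext i j
      fin_cases i <;> fin_cases j <;> simp [hb, hy10, hdiag]
    have hgc : g.1 = y.1 0 0 • (1 : Matrix (Fin 2) (Fin 2) L) := by
      have e : g = Q⁻¹ * (y * Q) := by rw [hy]; group
      have e' : g.1 = (Q⁻¹).1 * (y.1 * Q.1) := by rw [e]; rfl
      have e'' : (Q⁻¹).1 * Q.1 = 1 := congrArg Subtype.val (inv_mul_cancel Q)
      rw [e', hyc, Matrix.smul_mul, Matrix.one_mul, Matrix.mul_smul, e'']
      simp
    simp [hgc]
  obtain ⟨h, hh, hr⟩ := exists_ten (hψ.cj Q)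
  have t0 := hall' h hh
  have t1 := hall' _ (mul_mem hy' hh)
  have t2 := hall' _ (mul_mem hy' (mul_mem hy' hh))
  rw [tra] at t0 t1 t2
  simp only [coe_mul2, hy10, hdiag] at t1 t2
  rw [hdiag] at hdy
  set A := y.1 0 0
  set b := y.1 0 1
  set p := h.1 0 0
  set r := h.1 1 0
  set s := h.1 1 1
  have hbr : b * r ≠ 0 := mul_ne_zero hb hr
  have e1 : b * r = -(2 * A * (p + s)) := by
    have : b * r * (b * r + 2 * A * (p + s)) = 0 := by
      linear_combination t1 - A ^ 2 * t0 - 4 * hdy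
    rcases mul_eq_zero.1 this with h | h
    · exact absurd h hbr
    · linear_combination h
  have e2 : (32 : L) = 0 := by
    have : 4 * A ^ 2 * (b * r) * (A * (p + s) + b * r) = 0 := by
      linear_combination t2 - A ^ 4 * t0 - (4 * A ^ 2 + 4) * hdy
    rw [e1] at this
    linear_combination this - 8 * (p + s) ^ 2 * (A ^ 2 + 1) * hdy - 8 * t0
  have h2 : (2 : L) = 0 := by
    have : (2 : L) ^ 5 = 0 := by linear_combination e2
    exact pow_eq_zero_iff (by norm_num) |>.1 this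
  exact hbr (by rw [e1, mul_assoc, h2, zero_mul, neg_zero])

/-- A conjugate whose preimage contains a diagonal element and a good partner. -/
theorem exists_frame [IsAlgClosed L] {ψ : Γ →* PG L} (hψ : NotVS ψ) :
    ∃ ψ' : Γ →* PG L, NotVS ψ' ∧ ∃ g ∈ grp ψ', ∃ h ∈ grp ψ', g.1 0 1 = 0 ∧ g.1 1 0 = 0 ∧
      g.1 0 0 ≠ g.1 1 1 ∧ h.1 1 0 = 1 ∧ h.1 0 1 ≠ 0 := by
  obtain ⟨g0, hg0, hne⟩ := exists_trace_ne hψ
  obtain ⟨a, ha⟩ := exists_root_tra g0
  have ha2 : a * a ≠ 1 := by
    intro h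
    apply hne
    have h0 : tra g0 * a = 2 := by linear_combination -ha + h
    linear_combination (tra g0 * a + 2) * h0 - tra g0 ^ 2 * h
  obtain ⟨Q, h10, h01, h00, h11⟩ := exists_diag g0 ha ha2
  set g := Q * g0 * Q⁻¹
  have hg : g ∈ grp (cj Q ψ) := mem_cj hg0 Q
  have hd : g.1 0 0 ≠ g.1 1 1 := by
    rw [h00, h11]
    intro e
    apply ha2
    nth_rw 2 [e]
    exact mul_inv_cancel₀ (root_ne_zero ha)
  obtain ⟨h, hh, hh10, hh01⟩ : ∃ h ∈ grp (cj Q ψ), h.1 1 0 ≠ 0 ∧ h.1 0 1 ≠ 0 := by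
    obtain ⟨k, hk, hk10⟩ := exists_ten (hψ.cj Q)
    obtain ⟨l, hl, hl01⟩ := exists_zero_one (hψ.cj Q)
    by_cases hk01 : k.1 0 1 = 0
    · by_cases hl10 : l.1 1 0 = 0
      · refine ⟨k * l, mul_mem hk hl, ?_, ?_⟩
        · rw [coe_mul2, hl10, mul_zero, add_zero]
          have := det2 l
          rw [hl10, mul_zero, sub_zero] at this
          exact mul_ne_zero hk10 (left_ne_zero_of_mul_eq_one this)
        · rw [coe_mul2, hk01, zero_mul, add_zero]
          have := det2 k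
          rw [hk01, zero_mul, sub_zero] at this
          exact mul_ne_zero (left_ne_zero_of_mul_eq_one this) hl01
      · exact ⟨l, hl, hl10, hl01⟩
    · exact ⟨k, hk, hk10, hk01⟩
  obtain ⟨m, hm⟩ := IsAlgClosed.exists_pow_nat_eq (h.1 1 0) two_pos
  have hm0 : m ≠ 0 := fun e => hh10 (by rw [← hm, e]; simp)
  let D : SpecialLinearGroup (Fin 2) L := ⟨!![m, 0; 0, m⁻¹], by simp [Matrix.det_fin_two, hm0]⟩
  obtain ⟨d00, d01, d10, d11⟩ := inv2 D
  refine ⟨cj D (cj Q ψ), (hψ.cj Q).cj D, _, mem_cj hg D, _, mem_cj hh D, ?_⟩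
  simp only [coe_mul2, d00, d01, d10, d11]
  refine ⟨by simp [D, h01], by simp [D, h10], ?_, ?_, ?_⟩ <;> simp [D, hm0]
  · simpa [mul_comm, mul_left_comm, hm0] using hd
  · rw [← hm]; field_simp
  · exact hh01

/-- The formulae which recover a matrix from four traces. -/
theorem recover {g h : SpecialLinearGroup (Fin 2) L} (hg01 : g.1 0 1 = 0) (hg10 : g.1 1 0 = 0)
    (hne : g.1 0 0 ≠ g.1 1 1) (hh10 : h.1 1 0 = 1) (hh01 : h.1 0 1 ≠ 0)
    (x : SpecialLinearGroup (Fin 2) L) :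
    let w := (tra (x * g) - g.1 1 1 * tra x) / (g.1 0 0 - g.1 1 1)
    let k := (tra (x * g * h) - g.1 1 1 * tra (x * h)) / (g.1 0 0 - g.1 1 1)
    let u := tra x - w
    x.1 0 0 = w ∧ x.1 1 1 = u ∧ x.1 1 0 = (k - w * h.1 0 0) / h.1 0 1 ∧
      x.1 0 1 = tra (x * h) - k - u * h.1 1 1 := by
  intro w k u
  have hn : g.1 0 0 - g.1 1 1 ≠ 0 := sub_ne_zero.2 hne
  have hw : w = x.1 0 0 := by
    simp only [w, tra, coe_mul2, hg01, hg10]
    field_simp
    ring
  have hk : k = x.1 0 0 * h.1 0 0 + x.1 1 0 * h.1 0 1 := by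
    simp only [k, tra, coe_mul2, hg01, hg10, hh10]
    field_simp
    ring
  have hu : u = x.1 1 1 := by
    simp only [u, hw, tra]
    ring
  refine ⟨hw.symm, hu.symm, ?_, ?_⟩
  · rw [hk, hw]
    field_simp
    ring
  · rw [hk, hu]
    simp only [tra, coe_mul2, hh10]
    ring

theorem dg_eq {a : L} (ha : a ≠ 0) {y : SpecialLinearGroup (Fin 2) L} (h10 : y.1 1 0 = 0)
    (h01 : y.1 0 1 = 0) (h00 : y.1 0 0 = a) (h11 : y.1 1 1 = a⁻¹) :
    toPG y = dg (Units.mk0 (a * a) (mul_ne_zero ha ha)) := by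
  apply QuotientGroup.eq.2
  set d : GL (Fin 2) L := GeneralLinearGroup.mkOfDetNeZero _ _
  have hd : d = GeneralLinearGroup.scalar (Fin 2) (Units.mk0 a ha) * SpecialLinearGroup.toGL y := by
    apply Units.ext
    ext i j
    fin_cases i <;> fin_cases j <;> simp [d, Matrix.scalar_apply, h10, h01, h00, h11, ha]
  have hc : GeneralLinearGroup.scalar (Fin 2) (Units.mk0 a ha) ∈
      Subgroup.center (GL (Fin 2) L) := by
    rw [GeneralLinearGroup.center_eq_range_scalar]
    exact ⟨_, rfl⟩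
  rw [hd, Subgroup.mem_center_iff.1 hc _ |>.symm, ← mul_assoc, inv_mul_cancel, one_mul]
  exact hc

/-- An eigenvalue of absolute value above one gives a hyperbolic diagonal element. -/
theorem hasHyp_cj {v : AbsoluteValue L ℝ} {ψ : Γ →* PG L} {x : SpecialLinearGroup (Fin 2) L}
    (hx : x ∈ grp ψ) {a : L} (ha : a * a - tra x * a + 1 = 0) (hv : 1 < v a) :
    ∃ Q, HasHyp v (cj Q ψ) := by
  have ha2 : a * a ≠ 1 := fun h => by
    have := congrArg v h
    rw [map_mul, map_one] at this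
    nlinarith
  obtain ⟨Q, h10, h01, h00, h11⟩ := exists_diag x ha ha2
  obtain ⟨γ, hγ⟩ := mem_cj hx Q
  refine ⟨Q, γ, Units.mk0 (a * a) (mul_ne_zero (root_ne_zero ha) (root_ne_zero ha)), ?_, ?_⟩
  · rw [hγ, dg_eq (root_ne_zero ha) h10 h01 h00 h11]
  · rw [Units.val_mk0, map_mul]
    exact one_lt_mul_of_lt_of_le hv hv.le

/-- One of the two roots is large if the trace is. -/
theorem exists_big_root {v : AbsoluteValue L ℝ} {t a : L} {R : ℝ}
    (ha : a * a - t * a + 1 = 0) (hR : ∀ x y, v x ≤ 1 → v y ≤ 1 → v (x + y) ≤ R) (ht : R < v t) :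
    ∃ c : L, c * c - t * c + 1 = 0 ∧ 1 < v c := by
  have hi : a⁻¹ * a⁻¹ - t * a⁻¹ + 1 = 0 := by
    have := root_ne_zero ha
    field_simp
    linear_combination ha
  rcases lt_or_ge 1 (v a) with h | h
  · exact ⟨a, ha, h⟩
  refine ⟨a⁻¹, hi, ?_⟩
  by_contra hc
  have := hR a a⁻¹ h (not_lt.1 hc)
  rw [root_tra ha] at this
  linarith

end Vale.Agent.P165.GL2
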